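import Vale.Agent.P287.K13.Pol

set_option linter.all false

/-! Values and derivatives of the discriminants at a point where the conic splits. -/

namespace Vale.Agent.P287.K13

open MvPolynomial Module

variable {B : Tri6} {p c : Fin 3 → V6}

/-- the conic `6 L(y)` is the product of the linear forms `α`, `α'` -/
def FacL (B : Tri6) (p c : Fin 3 → V6) (y α α' : Fin 3 → ℂ) : Prop :=
  ∀ i j, B (p i) (p j) (lc c y) = (α i * α' j + α j * α' i) / 6

/-- cross product -/
def crs (a b : Fin 3 → ℂ) : Fin 3 → ℂ :=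
  ![a 1 * b 2 - a 2 * b 1, a 2 * b 0 - a 0 * b 2, a 0 * b 1 - a 1 * b 0]

theorem eval_Ep_fac {y α α' : Fin 3 → ℂ} (h : FacL B p c y α α') : eval y (Ep B p c) = 0 := by
  simp only [Ep, A00, A01, A02, map_add, map_sub, map_mul, eval_Lp, h _ _]
  ring

theorem eval_dEp_fac {y α α' : Fin 3 → ℂ} (h : FacL B p c y α α') (m : Fin 3)
    (hs : ∀ x y z, B x y z = B y x z) :
    eval y (pderiv m (Ep B p c)) =
      -(1 / 36) * B (lc p (crs α α')) (lc p (crs α α')) (c m) := by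
  have h10 : B (p 1) (p 0) (c m) = B (p 0) (p 1) (c m) := hs _ _ _
  have h20 : B (p 2) (p 0) (c m) = B (p 0) (p 2) (c m) := hs _ _ _
  have h21 : B (p 2) (p 1) (c m) = B (p 1) (p 2) (c m) := hs _ _ _
  simp only [Ep, A00, A01, A02, map_add, map_sub, map_mul, Derivation.leibniz, smul_eq_mul,
    eval_Lp, pderiv_Lp, eval_C, h _ _]
  simp only [lc, crs, Fin.sum_univ_three, Matrix.cons_val_zero,
    Matrix.cons_val_one, Matrix.cons_val, map_add, map_smul, LinearMap.add_apply,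
    LinearMap.smul_apply, smul_eq_mul, h10, h20, h21]
  ring

/-- `n · q` -/
noncomputable def nq (B : Tri6) (p c : Fin 3 → V6) (y n : Fin 3 → ℂ) : ℂ :=
  n 0 * eval y (qp B p c 0) + n 1 * eval y (qp B p c 1) + n 2 * eval y (qp B p c 2)

theorem eval_Rp_fac {y α α' : Fin 3 → ℂ} (h : FacL B p c y α α') (i : Fin 3) :
    eval y (Rp B p c i) = -(1 / 36) * crs α α' i * nq B p c y (crs α α') := by
  fin_cases i
  all_goals
    simp only [Fin.zero_eta, Fin.mk_one, Fin.reduceFinMk, Rp, A00, A01, A02, A11, A12, A22,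
      map_add, map_sub, map_mul, eval_Lp, h _ _, nq, crs, Matrix.cons_val_zero,
      Matrix.cons_val_one, Matrix.cons_val]
    ring

/-- the quadric cone is a pair of hyperplanes except possibly for its last coefficient -/
theorem eval_dDp_fac {y α α' : Fin 3 → ℂ} {β β' : ℂ} (h : FacL B p c y α α')
    (hq : ∀ i, eval y (qp B p c i) = (β' * α i + β * α' i) / 3) (m : Fin 3) :
    eval y (pderiv m (Dp B p c)) =
      4 * (eval y (kp B c) - β * β') * eval y (pderiv m (Ep B p c)) := by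
  have e0 := hq 0
  have e1 := hq 1
  have e2 := hq 2
  simp only [Dp, Rp, Ep, A00, A01, A02, A11, A12, A22, map_add, map_sub, map_mul,
    Derivation.leibniz, smul_eq_mul, eval_Lp, pderiv_Lp, eval_C, h _ _, e0, e1, e2, pderiv_C,
    map_zero]
  ring

theorem eval_Rp_fac0 {y α α' : Fin 3 → ℂ} {β β' : ℂ} (h : FacL B p c y α α')
    (hq : ∀ i, eval y (qp B p c i) = (β' * α i + β * α' i) / 3) (i : Fin 3) :
    eval y (Rp B p c i) = 0 := by
  rw [eval_Rp_fac h, nq, hq, hq, hq]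
  simp only [crs, Matrix.cons_val_zero, Matrix.cons_val_one, Matrix.cons_val]
  ring

/-- solving for the mixed coefficients -/
theorem solve_q (q α α' : Fin 3 → ℂ) (hn : crs α α' ≠ 0)
    (h : crs α α' 0 * q 0 + crs α α' 1 * q 1 + crs α α' 2 * q 2 = 0) :
    ∃ β β' : ℂ, ∀ i, q i = (β' * α i + β * α' i) / 3 := by
  obtain ⟨m, hm⟩ : ∃ m : Fin 3 → ℂ, m 0 * crs α α' 0 + m 1 * crs α α' 1 + m 2 * crs α α' 2 = 1 := by
    by_contra hcon
    push Not at hcon
    apply hn
    funext i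
    by_contra hi
    fin_cases i
    · have h0 : crs α α' 0 ≠ 0 := hi
      exact hcon ![(crs α α' 0)⁻¹, 0, 0] (by simp; exact inv_mul_cancel₀ h0)
    · have h0 : crs α α' 1 ≠ 0 := hi
      exact hcon ![0, (crs α α' 1)⁻¹, 0] (by simp; exact inv_mul_cancel₀ h0)
    · have h0 : crs α α' 2 ≠ 0 := hi
      exact hcon ![0, 0, (crs α α' 2)⁻¹] (by simp; exact inv_mul_cancel₀ h0)
  simp only [crs, Matrix.cons_val_zero, Matrix.cons_val_one, Matrix.cons_val] at h hm
  refine ⟨3 * (m 0 * (α 1 * q 2 - α 2 * q 1) + m 1 * (α 2 * q 0 - α 0 * q 2) +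
    m 2 * (α 0 * q 1 - α 1 * q 0)),
    3 * (m 0 * (q 1 * α' 2 - q 2 * α' 1) + m 1 * (q 2 * α' 0 - q 0 * α' 2) +
    m 2 * (q 0 * α' 1 - q 1 * α' 0)), ?_⟩
  intro i
  fin_cases i
  · simp only [Fin.zero_eta]
    linear_combination (m 0) * h - (q 0) * hm
  · simp only [Fin.mk_one]
    linear_combination (m 1) * h - (q 1) * hm
  · simp only [Fin.reduceFinMk]
    linear_combination (m 2) * h - (q 2) * hm

/-- binary quadratic forms split -/
theorem split2 (a b d : ℂ) : ∃ x0 x1 y0 y1 : ℂ, 6 * a = 2 * x0 * y0 ∧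
    6 * b = x0 * y1 + x1 * y0 ∧ 6 * d = 2 * x1 * y1 := by
  obtain ⟨w, hw⟩ : ∃ w : ℂ, w ^ 2 = b ^ 2 - a * d := IsAlgClosed.exists_pow_nat_eq _ (by norm_num)
  by_cases ha : a = 0
  · refine ⟨0, 1, 6 * b, 3 * d, ?_, ?_, ?_⟩
    · rw [ha]; ring
    · ring
    · ring
  · refine ⟨a, b + w, 3, 3 * (b - w) / a, ?_, ?_, ?_⟩
    · ring
    · field_simp
      ring
    · field_simp
      linear_combination 6 * hw

/-- ternary quadratic forms with a radical vector (last coordinate nonzero) split -/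
theorem split3 (a b c d e f v0 v1 v2 : ℂ) (hv : v2 ≠ 0) (h0 : a * v0 + b * v1 + c * v2 = 0)
    (h1 : b * v0 + d * v1 + e * v2 = 0) (h2 : c * v0 + e * v1 + f * v2 = 0) :
    ∃ x0 x1 x2 y0 y1 y2 : ℂ, 6 * a = 2 * x0 * y0 ∧ 6 * b = x0 * y1 + x1 * y0 ∧
      6 * c = x0 * y2 + x2 * y0 ∧ 6 * d = 2 * x1 * y1 ∧ 6 * e = x1 * y2 + x2 * y1 ∧
      6 * f = 2 * x2 * y2 := by
  obtain ⟨x0, x1, y0, y1, e1, e2, e3⟩ := split2 a b d
  have hc : c = -(a * v0 + b * v1) / v2 := by field_simp; linear_combination h0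
  have he : e = -(b * v0 + d * v1) / v2 := by field_simp; linear_combination h1
  have hf : f = -(c * v0 + e * v1) / v2 := by field_simp; linear_combination h2
  refine ⟨x0, x1, -(x0 * v0 + x1 * v1) / v2, y0, y1, -(y0 * v0 + y1 * v1) / v2,
    e1, e2, ?_, e3, ?_, ?_⟩
  · rw [hc]; field_simp; linear_combination (-v0) * e1 - v1 * e2
  · rw [he]; field_simp; linear_combination (-v0) * e2 - v1 * e3
  · rw [hf, hc, he]; field_simp; linear_combination v0 ^ 2 * e1 + 2 * v0 * v1 * e2 + v1 ^ 2 * e3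

/-- symmetric matrices of determinant zero split -/
theorem split_det (L : Fin 3 → Fin 3 → ℂ) (hs : ∀ i j, L i j = L j i)
    (hdet : L 0 0 * (L 1 1 * L 2 2 - L 1 2 * L 1 2) + L 0 1 * (L 0 2 * L 1 2 - L 0 1 * L 2 2) +
      L 0 2 * (L 0 1 * L 1 2 - L 0 2 * L 1 1) = 0) :
    ∃ α α' : Fin 3 → ℂ, ∀ i j, L i j = (α i * α' j + α j * α' i) / 6 := by
  have hd : (Matrix.of L).det = 0 := by
    rw [Matrix.det_fin_three]
    simp only [Matrix.of_apply]
    rw [hs 1 0, hs 2 0, hs 2 1]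
    linear_combination hdet
  obtain ⟨v, hv, hLv⟩ := Matrix.exists_mulVec_eq_zero_iff.2 hd
  have r : ∀ i, L i 0 * v 0 + L i 1 * v 1 + L i 2 * v 2 = 0 := by
    intro i
    have := congrFun hLv i
    simpa [Matrix.mulVec, dotProduct, Fin.sum_univ_three] using this
  have r0 := r 0
  have r1 := r 1
  have r2 := r 2
  rw [hs 1 0] at r1
  rw [hs 2 0, hs 2 1] at r2
  have fin : ∀ (x0 x1 x2 y0 y1 y2 : ℂ), 6 * L 0 0 = 2 * x0 * y0 → 6 * L 0 1 = x0 * y1 + x1 * y0 →
      6 * L 0 2 = x0 * y2 + x2 * y0 → 6 * L 1 1 = 2 * x1 * y1 → 6 * L 1 2 = x1 * y2 + x2 * y1 →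
      6 * L 2 2 = 2 * x2 * y2 →
      ∃ α α' : Fin 3 → ℂ, ∀ i j, L i j = (α i * α' j + α j * α' i) / 6 := by
    intro x0 x1 x2 y0 y1 y2 e00 e01 e02 e11 e12 e22
    refine ⟨![x0, x1, x2], ![y0, y1, y2], ?_⟩
    intro i j
    fin_cases i <;> fin_cases j <;>
      simp only [Fin.zero_eta, Fin.mk_one, Fin.reduceFinMk, Matrix.cons_val_zero,
        Matrix.cons_val_one, Matrix.cons_val]
    · linear_combination (1 / 6) * e00
    · linear_combination (1 / 6) * e01
    · linear_combination (1 / 6) * e02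
    · rw [hs 1 0]; linear_combination (1 / 6) * e01
    · linear_combination (1 / 6) * e11
    · linear_combination (1 / 6) * e12
    · rw [hs 2 0]; linear_combination (1 / 6) * e02
    · rw [hs 2 1]; linear_combination (1 / 6) * e12
    · linear_combination (1 / 6) * e22
  have hex : v 0 ≠ 0 ∨ v 1 ≠ 0 ∨ v 2 ≠ 0 := by
    by_contra hcon
    push Not at hcon
    apply hv
    funext i
    fin_cases i
    · exact hcon.1
    · exact hcon.2.1
    · exact hcon.2.2
  rcases hex with h | h | h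
  · obtain ⟨x0, x1, x2, y0, y1, y2, e1, e2, e3, e4, e5, e6⟩ :=
      split3 (L 1 1) (L 1 2) (L 0 1) (L 2 2) (L 0 2) (L 0 0) (v 1) (v 2) (v 0) h
        (by linear_combination r1) (by linear_combination r2) (by linear_combination r0)
    exact fin x2 x0 x1 y2 y0 y1 e6 (by linear_combination e3) (by linear_combination e5) e1
      (by linear_combination e2) e4
  · obtain ⟨x0, x1, x2, y0, y1, y2, e1, e2, e3, e4, e5, e6⟩ :=
      split3 (L 0 0) (L 0 2) (L 0 1) (L 2 2) (L 1 2) (L 1 1) (v 0) (v 2) (v 1) h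
        (by linear_combination r0) (by linear_combination r2) (by linear_combination r1)
    exact fin x0 x2 x1 y0 y2 y1 e1 (by linear_combination e3) (by linear_combination e2) e6
      (by linear_combination e5) e4
  · obtain ⟨x0, x1, x2, y0, y1, y2, e1, e2, e3, e4, e5, e6⟩ :=
      split3 (L 0 0) (L 0 1) (L 0 2) (L 1 1) (L 1 2) (L 2 2) (v 0) (v 1) (v 2) h r0 r1 r2
    exact fin x0 x1 x2 y0 y1 y2 e1 e2 e3 e4 e5 e6

end Vale.Agent.P287.K13
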