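import Vale.Agent.P287.K13.Geo

set_option linter.all false

/-! The double lines of the net: at most three. -/

namespace Vale.Agent.P287.K13

open MvPolynomial Module

variable {B : Tri6} {p c : Fin 3 → V6} {S T : Fin 3 → (V6 →ₗ[ℂ] ℂ)} {P : Submodule ℂ V6}

/-- a singular point of the discriminant cubic -/
def Bad (B : Tri6) (p c : Fin 3 → V6) (y : Fin 3 → ℂ) : Prop :=
  eval y (Ep B p c) = 0 ∧ ∀ m, eval y (pderiv m (Ep B p c)) = 0

theorem crs_zero {a b : Fin 3 → ℂ} (h : crs a b = 0) (i j : Fin 3) : a i * b j = a j * b i := by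
  have h0 := congrFun h 0
  have h1 := congrFun h 1
  have h2 := congrFun h 2
  simp only [crs, Matrix.cons_val_zero, Matrix.cons_val_one, Matrix.cons_val, Pi.zero_apply]
    at h0 h1 h2
  fin_cases i <;> fin_cases j <;> simp only [Fin.zero_eta, Fin.mk_one, Fin.reduceFinMk]
  · linear_combination h2
  · linear_combination -h1
  · linear_combination -h2
  · linear_combination h0
  · linear_combination h1
  · linear_combination -h0

theorem fac_of_Ep (hB : Good B) {y : Fin 3 → ℂ} (h : eval y (Ep B p c) = 0) :
    ∃ α α', FacL B p c y α α' := by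
  refine split_det (fun i j => B (p i) (p j) (lc c y)) (fun i j => hB.s12 _ _ _) ?_
  simpa only [Ep, A00, A01, A02, map_add, map_sub, map_mul, eval_Lp] using h

theorem crs_of_bad (hB : Good B) (hF : Fr B p c S T) {y α α' : Fin 3 → ℂ}
    (h : ∀ m, eval y (pderiv m (Ep B p c)) = 0) (hL : FacL B p c y α α') : crs α α' = 0 := by
  by_contra hne
  obtain ⟨m, hm⟩ := hF.smoothP hB hne
  have := h m
  rw [eval_dEp_fac hL m hB.s12] at this
  apply hm
  have h2 : (-(1 / 36) : ℂ) ≠ 0 := by norm_num
  exact (mul_eq_zero.1 this).resolve_left h2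

theorem rank_one (hB : Good B) (hF : Fr B p c S T) (hP : Pl B P) (hpP : ∀ i, p i ∈ P)
    (hT : ∀ x ∈ P, ∀ i, T i x = 0) {y : Fin 3 → ℂ} (hy : y ≠ 0) (h : Bad B p c y) :
    ∃ (u : Fin 3 → ℂ) (κ : ℂ), κ ≠ 0 ∧ ∀ i j, B (p i) (p j) (lc c y) = κ * u i * u j := by
  obtain ⟨α, α', hL⟩ := fac_of_Ep hB h.1
  have hc := crs_of_bad hB hF h.2 hL
  obtain ⟨i0, hi0⟩ : ∃ i, α i ≠ 0 := by
    by_contra hcon
    push Not at hcon
    refine hF.L_ne hB hP hpP hT hy fun i j => ?_
    rw [hL i j, hcon i, hcon j]; ring
  have e : ∀ j, α' j = α' i0 / α i0 * α j := by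
    intro j
    have := crs_zero hc i0 j
    field_simp
    linear_combination this
  refine ⟨α, α' i0 / α i0 / 3, ?_, ?_⟩
  · intro h0
    refine hF.L_ne hB hP hpP hT hy fun i j => ?_
    have h1 : α' i0 / α i0 = 0 := by linear_combination 3 * h0
    rw [hL i j, e i, e j, h1]; ring
  · intro i j
    rw [hL i j, e i, e j]
    ring

/-- dot product -/
def dt (a b : Fin 3 → ℂ) : ℂ := a 0 * b 0 + a 1 * b 1 + a 2 * b 2

theorem dt_crs_self (a b : Fin 3 → ℂ) : dt a (crs a b) = 0 := by
  simp only [dt, crs, Matrix.cons_val_zero, Matrix.cons_val_one, Matrix.cons_val]; ring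

theorem dt_crs_self' (a b : Fin 3 → ℂ) : dt b (crs a b) = 0 := by
  simp only [dt, crs, Matrix.cons_val_zero, Matrix.cons_val_one, Matrix.cons_val]; ring

theorem exists_dt {n : Fin 3 → ℂ} (h : n ≠ 0) : ∃ e, dt n e ≠ 0 := by
  by_contra hcon
  push Not at hcon
  apply h
  funext i
  have h0 := hcon ![1, 0, 0]
  have h1 := hcon ![0, 1, 0]
  have h2 := hcon ![0, 0, 1]
  simp [dt] at h0 h1 h2
  fin_cases i
  · exact h0
  · exact h1
  · exact h2

/-- a vector orthogonal to `a` and not to `b` -/
theorem exists_orth {a b : Fin 3 → ℂ} (h : crs a b ≠ 0) : ∃ w, dt a w = 0 ∧ dt b w ≠ 0 := by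
  obtain ⟨e, he⟩ := exists_dt h
  refine ⟨crs a e, dt_crs_self _ _, ?_⟩
  intro h0
  apply he
  simp only [dt, crs, Matrix.cons_val_zero, Matrix.cons_val_one, Matrix.cons_val] at h0 ⊢
  linear_combination -h0

theorem coef_zero {u v : Fin 3 → ℂ} (h : crs u v ≠ 0) {a b : ℂ}
    (h0 : ∀ i, a * u i + b * v i = 0) : a = 0 := by
  by_contra ha
  apply h
  have h1 := h0 0
  have h2 := h0 1
  have h3 := h0 2
  funext i
  have : a * crs u v i = 0 := by
    fin_cases i <;>
      simp only [crs, Fin.zero_eta, Fin.mk_one, Fin.reduceFinMk, Matrix.cons_val_zero,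
        Matrix.cons_val_one, Matrix.cons_val]
    · linear_combination v 2 * h2 - v 1 * h3
    · linear_combination v 0 * h3 - v 2 * h1
    · linear_combination v 1 * h1 - v 0 * h2
  exact (mul_eq_zero.1 this).resolve_left ha

theorem crs_swap (a b : Fin 3 → ℂ) : crs a b = -crs b a := by
  funext i
  fin_cases i <;>
    simp only [crs, Pi.neg_apply, Fin.zero_eta, Fin.mk_one, Fin.reduceFinMk, Matrix.cons_val_zero,
      Matrix.cons_val_one, Matrix.cons_val] <;> ring

theorem crs_ne_swap {a b : Fin 3 → ℂ} (h : crs a b ≠ 0) : crs b a ≠ 0 := by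
  intro h0
  apply h
  rw [crs_swap, h0, neg_zero]

/-- four double lines are impossible -/
theorem bad_four (hB : Good B) (hF : Fr B p c S T) (hP : Pl B P) (hpP : ∀ i, p i ∈ P)
    (hT : ∀ x ∈ P, ∀ i, T i x = 0) (z : Fin 4 → (Fin 3 → ℂ)) (hz : ∀ i, z i ≠ 0)
    (hzz : ∀ i j, i ≠ j → ∀ t : ℂ, z i ≠ t • z j) (hbad : ∀ i, Bad B p c (z i)) : False := by
  have hex := fun i => rank_one hB hF hP hpP hT (hz i) (hbad i)
  choose u κ hκ hu using hex
  have hlin : ∀ (r : Fin 4 → ℂ) (i j : Fin 3),
      B (p i) (p j) (lc c (∑ l, r l • z l)) = ∑ l, r l * (κ l * u l i * u l j) := by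
    intro r i j
    rw [Fin.sum_univ_four, Fin.sum_univ_four, lc_add, lc_add, lc_add, lc_smul, lc_smul, lc_smul,
      lc_smul, map_add, map_add, map_add, map_smul, map_smul, map_smul, map_smul, hu, hu, hu, hu]
    simp only [smul_eq_mul]
  -- pairwise independence
  have hI : ∀ a b, a ≠ b → crs (u a) (u b) ≠ 0 := by
    intro a b hab h0
    -- some entry of `u b` is nonzero
    obtain ⟨i0, hi0⟩ : ∃ i, u b i ≠ 0 := by
      by_contra hcon
      push Not at hcon
      refine hF.L_ne hB hP hpP hT (hz b) fun i j => ?_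
      rw [hu b i j, hcon i]; ring
    have e : ∀ j, u a j = u a i0 / u b i0 * u b j := by
      intro j
      have := crs_zero h0 i0 j
      field_simp
      linear_combination -this
    set t := u a i0 / u b i0 with ht
    apply hzz a b hab (κ a * t ^ 2 / κ b)
    by_contra hne
    have hne' : z a + (-(κ a * t ^ 2 / κ b)) • z b ≠ 0 := by
      intro h1
      apply hne
      rw [neg_smul] at h1
      exact add_neg_eq_zero.1 h1
    refine hF.L_ne hB hP hpP hT hne' fun i j => ?_
    rw [lc_add, lc_smul, map_add, map_smul, hu, hu, smul_eq_mul, e i, e j]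
    have := hκ b
    field_simp
    ring
  -- relation for a vanishing combination
  have hrel : ∀ r : Fin 4 → ℂ, (∑ l, r l • z l) = 0 → ∀ w i,
      r 0 * κ 0 * dt (u 0) w * u 0 i + r 1 * κ 1 * dt (u 1) w * u 1 i +
      r 2 * κ 2 * dt (u 2) w * u 2 i + r 3 * κ 3 * dt (u 3) w * u 3 i = 0 := by
    intro r hr w i
    have h1 : ∀ j, ∑ l, r l * (κ l * u l i * u l j) = 0 := by
      intro j
      rw [← hlin r i j, hr]
      simp [lc]
    have a0 := h1 0
    have a1 := h1 1
    have a2 := h1 2
    rw [Fin.sum_univ_four] at a0 a1 a2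
    simp only [dt]
    linear_combination w 0 * a0 + w 1 * a1 + w 2 * a2
  -- three of the forms have no common zero
  have hII : ∀ (a b d : Fin 4), a ≠ b → a ≠ d → b ≠ d → ∀ x : Fin 3 → ℂ, x ≠ 0 →
      dt (u a) x = 0 → dt (u b) x = 0 → dt (u d) x ≠ 0 := by
    intro a b d hab had hbd x hx ha hb hd
    by_cases hli : LinearIndependent ℂ ![z a, z b, z d]
    · have hsp : Submodule.span ℂ (Set.range ![z a, z b, z d]) = ⊤ :=
        hli.span_eq_top_of_card_eq_finrank (by simp)
      obtain ⟨m, hm⟩ := hF.smoothP hB hx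
      apply hm
      have key : ∀ y : Fin 3 → ℂ, B (lc p x) (lc p x) (lc c y) = 0 := by
        intro y
        have hy : y ∈ Submodule.span ℂ (Set.range ![z a, z b, z d]) := by
          rw [hsp]; exact Submodule.mem_top
        induction hy using Submodule.span_induction with
        | mem y hy =>
          have hq : ∀ l, dt (u l) x = 0 → B (lc p x) (lc p x) (lc c (z l)) = 0 := by
            intro l hl
            have : B (lc p x) (lc p x) (lc c (z l)) = κ l * dt (u l) x * dt (u l) x := by
              rw [show lc p x = x 0 • p 0 + x 1 • p 1 + x 2 • p 2 by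
                rw [lc, Fin.sum_univ_three]]
              simp only [map_add, map_smul, LinearMap.add_apply, LinearMap.smul_apply,
                smul_eq_mul, hu, dt]
              ring
            rw [this, hl]; ring
          obtain ⟨i, rfl⟩ := hy
          fin_cases i
          · exact hq a ha
          · exact hq b hb
          · exact hq d hd
        | zero => simp [lc]
        | add y y' _ _ h1 h2 => rw [lc_add, map_add, h1, h2, add_zero]
        | smul t y _ h1 => rw [lc_smul, map_smul, h1, smul_zero]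
      have := key (Pi.single m 1)
      have e : lc c (Pi.single m 1) = c m := by
        rw [lc, Finset.sum_eq_single m]
        · simp
        · intro i _ hi; simp [hi]
        · intro h; exact absurd (Finset.mem_univ _) h
      rwa [e] at this
    · rw [Fintype.linearIndependent_iff] at hli
      push Not at hli
      obtain ⟨g, hg, i0, hi0⟩ := hli
      rw [Fin.sum_univ_three] at hg
      simp only [Matrix.cons_val_zero, Matrix.cons_val_one, Matrix.cons_val] at hg
      have hrel3 : ∀ w i, g 0 * κ a * dt (u a) w * u a i + g 1 * κ b * dt (u b) w * u b i +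
          g 2 * κ d * dt (u d) w * u d i = 0 := by
        intro w i
        have h1 : ∀ j, g 0 * (κ a * u a i * u a j) + g 1 * (κ b * u b i * u b j) +
            g 2 * (κ d * u d i * u d j) = 0 := by
          intro j
          rw [← hu a i j, ← hu b i j, ← hu d i j, ← smul_eq_mul, ← smul_eq_mul, ← smul_eq_mul,
            ← map_smul, ← map_smul, ← map_smul, ← map_add, ← map_add, ← lc_smul, ← lc_smul,
            ← lc_smul, ← lc_add, ← lc_add, hg]
          simp [lc]
        have a0 := h1 0
        have a1 := h1 1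
        have a2 := h1 2
        simp only [dt]
        linear_combination w 0 * a0 + w 1 * a1 + w 2 * a2
      have r1 : g 1 = 0 := by
        obtain ⟨w, hw1, hw2⟩ := exists_orth (hI a b hab)
        have := coef_zero (hI b d hbd) (a := g 1 * κ b * dt (u b) w) (b := g 2 * κ d * dt (u d) w)
          (fun i => by have := hrel3 w i; rw [hw1] at this; linear_combination this)
        have h2 := (mul_eq_zero.1 this).resolve_right hw2
        exact (mul_eq_zero.1 h2).resolve_right (hκ b)
      have r0 : g 0 = 0 := by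
        obtain ⟨w, hw1, hw2⟩ := exists_orth (crs_ne_swap (hI a b hab))
        have := coef_zero (hI a d had) (a := g 0 * κ a * dt (u a) w) (b := g 2 * κ d * dt (u d) w)
          (fun i => by have := hrel3 w i; rw [hw1] at this; linear_combination this)
        have h2 := (mul_eq_zero.1 this).resolve_right hw2
        exact (mul_eq_zero.1 h2).resolve_right (hκ a)
      have r2 : g 2 = 0 := by
        obtain ⟨w, hw1, hw2⟩ := exists_orth (hI a d had)
        have := coef_zero (crs_ne_swap (hI b d hbd)) (a := g 2 * κ d * dt (u d) w)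
          (b := g 1 * κ b * dt (u b) w)
          (fun i => by have := hrel3 w i; rw [hw1] at this; linear_combination this)
        have h2 := (mul_eq_zero.1 this).resolve_right hw2
        exact (mul_eq_zero.1 h2).resolve_right (hκ d)
      apply hi0
      fin_cases i0
      · exact r0
      · exact r1
      · exact r2
  -- the four vectors are dependent
  have hdep : ¬ LinearIndependent ℂ z := by
    intro h
    have := h.fintype_card_le_finrank
    simp at this
  rw [Fintype.linearIndependent_iff] at hdep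
  push Not at hdep
  obtain ⟨r, hr, i0, hi0⟩ := hdep
  have hR := hrel r hr
  have main : ∀ (l0 l1 l2 l3 : Fin 4), l0 ≠ l1 → l0 ≠ l2 → l0 ≠ l3 → l1 ≠ l2 →
      (∀ w i, r l0 * κ l0 * dt (u l0) w * u l0 i + r l1 * κ l1 * dt (u l1) w * u l1 i +
      r l2 * κ l2 * dt (u l2) w * u l2 i + r l3 * κ l3 * dt (u l3) w * u l3 i = 0) →
      r l0 = 0 := by
    intro l0 l1 l2 l3 h01 h02 h03 h12 hR
    have w1 := dt_crs_self (u l1) (u l2)
    have w2 := dt_crs_self' (u l1) (u l2)
    have w0 := hII l1 l2 l0 h12 h01.symm h02.symm _ (hI l1 l2 h12) w1 w2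
    set w := crs (u l1) (u l2)
    have := coef_zero (hI l0 l3 h03) (a := r l0 * κ l0 * dt (u l0) w)
      (b := r l3 * κ l3 * dt (u l3) w)
      (fun i => by have := hR w i; rw [w1, w2] at this; linear_combination this)
    have h2 := (mul_eq_zero.1 this).resolve_right w0
    exact (mul_eq_zero.1 h2).resolve_right (hκ l0)
  apply hi0
  fin_cases i0
  · exact main 0 1 2 3 (by decide) (by decide) (by decide) (by decide)
      (fun w i => by linear_combination hR w i)
  · exact main 1 0 2 3 (by decide) (by decide) (by decide) (by decide)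
      (fun w i => by linear_combination hR w i)
  · exact main 2 0 1 3 (by decide) (by decide) (by decide) (by decide)
      (fun w i => by linear_combination hR w i)
  · exact main 3 0 1 2 (by decide) (by decide) (by decide) (by decide)
      (fun w i => by linear_combination hR w i)

/-- at most three singular points of the discriminant cubic -/
theorem bad_card (hB : Good B) (hF : Fr B p c S T) (hP : Pl B P) (hpP : ∀ i, p i ∈ P)
    (hT : ∀ x ∈ P, ∀ i, T i x = 0) {Z : Finset (Fin 3 → ℂ)} (hZ : Proj Z)
    (hbad : ∀ z ∈ Z, Bad B p c z) : Z.card ≤ 3 := by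
  by_contra hlt
  push Not at hlt
  obtain ⟨W, hWZ, hW⟩ := Finset.exists_subset_card_eq (show 4 ≤ Z.card by omega)
  have hWp := hZ.mono hWZ
  let e : Fin 4 ≃ W := (Fintype.equivFinOfCardEq (by simp [hW])).symm
  refine bad_four hB hF hP hpP hT (fun i => (e i : Fin 3 → ℂ)) (fun i => hWp.1 _ (e i).2)
    (fun i j hij t => ?_) (fun i => hbad _ (hWZ (e i).2))
  exact hWp.2 _ (e i).2 _ (e j).2 (fun h => hij (e.injective (Subtype.ext h))) t

end Vale.Agent.P287.K13
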