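import Vale.Agent.P287.K13.Hom
import Vale.Agent.P271.Hilb.UPoly

set_option linter.all false

/-! Bezout bound for an irreducible plane projective curve. -/

namespace Vale.Agent.P287.K13

open MvPolynomial

abbrev MP3 : Type := MvPolynomial (Fin 3) ℂ

/-- forms of degree `n` -/
noncomputable abbrev SS (n : ℕ) : Submodule ℂ MP3 := homogeneousSubmodule (Fin 3) ℂ n

instance (n : ℕ) : Module.Finite ℂ (SS n) := Vale.Agent.P271.Hilb.finite_homogeneousSubmodule 2 n

theorem finrank_SS (n : ℕ) : Module.finrank ℂ (SS n) * 2 = (n + 1) * (n + 2) := by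
  rw [Vale.Agent.P271.Hilb.finrank_homogeneousSubmodule 2 n, Nat.choose_two_right]
  have h : 2 ∣ (n + 2) * (n + 2 - 1) := (Nat.even_mul_pred_self (n + 2)).two_dvd
  rw [Nat.div_mul_cancel h]
  have : n + 2 - 1 = n + 1 := by omega
  rw [this]; ring

/-- the form of a linear functional -/
noncomputable def lf (f : (Fin 3 → ℂ) →ₗ[ℂ] ℂ) : MP3 := ∑ i, C (f (Pi.single i 1)) * X i

theorem lf_homog (f : (Fin 3 → ℂ) →ₗ[ℂ] ℂ) : (lf f).IsHomogeneous 1 := by
  unfold lf
  apply IsHomogeneous.sum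
  intro i _
  have := (isHomogeneous_C (Fin 3) (f (Pi.single i 1))).mul (isHomogeneous_X ℂ i)
  simpa using this

theorem eval_lf (f : (Fin 3 → ℂ) →ₗ[ℂ] ℂ) (z : Fin 3 → ℂ) : eval z (lf f) = f z := by
  unfold lf
  rw [map_sum]
  conv_rhs => rw [pi_eq_sum_univ z, map_sum]
  refine Finset.sum_congr rfl fun i _ => ?_
  rw [map_mul, eval_C, eval_X, map_smul, smul_eq_mul, mul_comm]
  congr 2
  funext j
  simp [Pi.single_apply, eq_comm]

/-- pairwise not proportional nonzero vectors -/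
def Proj (Z : Finset (Fin 3 → ℂ)) : Prop :=
  (∀ z ∈ Z, z ≠ 0) ∧ ∀ z ∈ Z, ∀ w ∈ Z, z ≠ w → ∀ c : ℂ, z ≠ c • w

theorem Proj.mono {Z W : Finset (Fin 3 → ℂ)} (h : Proj Z) (hW : W ⊆ Z) : Proj W :=
  ⟨fun z hz => h.1 z (hW hz), fun z hz w hw => h.2 z (hW hz) w (hW hw)⟩

theorem exists_sep {z w : Fin 3 → ℂ} (h : ∀ c : ℂ, z ≠ c • w) :
    ∃ f : (Fin 3 → ℂ) →ₗ[ℂ] ℂ, f w = 0 ∧ f z ≠ 0 := by
  have hz : z ∉ Submodule.span ℂ {w} := by
    intro hz
    obtain ⟨c, hc⟩ := Submodule.mem_span_singleton.1 hz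
    exact h c hc.symm
  obtain ⟨f, hf, hf'⟩ := Submodule.exists_dual_map_eq_bot_of_notMem hz inferInstance
  refine ⟨f, ?_, hf⟩
  have : f w ∈ (Submodule.span ℂ {w}).map f :=
    Submodule.mem_map_of_mem (Submodule.mem_span_singleton_self w)
  rw [hf', Submodule.mem_bot] at this
  exact this

theorem exists_ne {z : Fin 3 → ℂ} (h : z ≠ 0) : ∃ f : (Fin 3 → ℂ) →ₗ[ℂ] ℂ, f z ≠ 0 := by
  obtain ⟨f, -, hf⟩ := exists_sep (z := z) (w := 0) (fun c hc => h (by rw [hc, smul_zero]))
  exact ⟨f, hf⟩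

/-- evaluation at the points of `Z` as a linear map. -/
noncomputable def evL (Z : Finset (Fin 3 → ℂ)) : MP3 →ₗ[ℂ] (Z → ℂ) where
  toFun := fun P z => eval z.1 P
  map_add' := fun P Q => by
    funext z
    simp
  map_smul' := fun c P => by
    funext z
    simp [smul_eval]

@[simp] theorem evL_apply (Z : Finset (Fin 3 → ℂ)) (P : MP3) (z : Z) :
    evL Z P z = eval z.1 P := rfl

theorem evL_surj (Z : Finset (Fin 3 → ℂ)) (hZ : Proj Z) (n : ℕ) (hn : Z.card ≤ n) :
    (SS n).map (evL Z) = ⊤ := by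
  classical
  rw [eq_top_iff, ← (Pi.basisFun ℂ Z).span_eq, Submodule.span_le]
  rintro _ ⟨z, rfl⟩
  have hsep : ∀ w : Fin 3 → ℂ, ∃ f : (Fin 3 → ℂ) →ₗ[ℂ] ℂ, w ∈ Z → w ≠ z.1 →
      (f w = 0 ∧ f z.1 ≠ 0) := by
    intro w
    by_cases h : w ∈ Z ∧ w ≠ z.1
    · obtain ⟨f, hf⟩ := exists_sep (hZ.2 z.1 z.2 w h.1 (Ne.symm h.2))
      exact ⟨f, fun _ _ => hf⟩
    · exact ⟨0, fun h1 h2 => absurd ⟨h1, h2⟩ h⟩
  choose f hf using hsep
  obtain ⟨f0, hf0⟩ := exists_ne (hZ.1 z.1 z.2)
  set P : MP3 := (∏ w ∈ Z.erase z.1, lf (f w)) * lf f0 ^ (n - (Z.erase z.1).card) with hP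
  have hPdeg : P ∈ SS n := by
    rw [mem_homogeneousSubmodule, hP]
    have h1 : (∏ w ∈ Z.erase z.1, lf (f w)).IsHomogeneous (∑ w ∈ Z.erase z.1, 1) :=
      IsHomogeneous.prod _ _ _ fun w _ => lf_homog _
    have h2 := h1.mul ((lf_homog f0).pow (n - (Z.erase z.1).card))
    have h3 : (∑ w ∈ Z.erase z.1, 1) + 1 * (n - (Z.erase z.1).card) = n := by
      have := Finset.card_erase_le (s := Z) (a := z.1)
      simp only [Finset.sum_const, smul_eq_mul, mul_one]
      omega
    rwa [h3] at h2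
  have hz : eval z.1 P ≠ 0 := by
    rw [hP, map_mul, map_prod, map_pow, eval_lf]
    refine mul_ne_zero ?_ (pow_ne_zero _ hf0)
    rw [Finset.prod_ne_zero_iff]
    intro w hw
    rw [eval_lf]
    exact (hf w (Finset.mem_of_mem_erase hw) (Finset.ne_of_mem_erase hw)).2
  have hw : ∀ w : Z, w ≠ z → eval w.1 P = 0 := by
    intro w hw
    have hne : w.1 ≠ z.1 := fun h => hw (Subtype.ext h)
    rw [hP, map_mul, map_prod]
    rw [Finset.prod_eq_zero (i := w.1) (Finset.mem_erase.2 ⟨hne, w.2⟩), zero_mul]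
    rw [eval_lf]
    exact (hf w.1 w.2 hne).1
  refine ⟨(eval z.1 P)⁻¹ • P, (SS n).smul_mem _ hPdeg, ?_⟩
  rw [map_smul]
  funext w
  simp only [Pi.smul_apply, evL_apply, smul_eq_mul, Pi.basisFun_apply]
  by_cases h : w = z
  · subst h
    rw [inv_mul_cancel₀ hz]
    simp
  · rw [hw w h, mul_zero, Pi.single_eq_of_ne h]

/-- multiplication by `q` as a linear map. -/
noncomputable abbrev mulq (q : MP3) : MP3 →ₗ[ℂ] MP3 := LinearMap.mulLeft ℂ q

theorem finrank_map_mulq {q : MP3} (hq : q ≠ 0) (n : ℕ) :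
    Module.finrank ℂ ((SS n).map (mulq q)) = Module.finrank ℂ (SS n) := by
  have hinj : Function.Injective (mulq q) := by
    intro u v huv
    exact mul_left_cancel₀ hq huv
  exact (LinearEquiv.finrank_eq (Submodule.equivMapOfInjective (mulq q) hinj (SS n))).symm

theorem map_mulq_le {q : MP3} {n m a : ℕ} (hq : q.IsHomogeneous a) (h : a + m = n) :
    (SS m).map (mulq q) ≤ SS n := by
  rintro _ ⟨u, hu, rfl⟩
  have hu' : u.IsHomogeneous m := hu
  have := hq.mul hu'
  rw [h] at this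
  exact this

/-- Bezout, one curve irreducible. -/
theorem bez_irr {q G : MP3} {a b : ℕ} (hq : Irreducible q) (hG : ¬ q ∣ G)
    (hqa : q.IsHomogeneous a) (hGb : G.IsHomogeneous b)
    (Z : Finset (Fin 3 → ℂ)) (hZ : Proj Z) (h1 : ∀ z ∈ Z, eval z q = 0)
    (h2 : ∀ z ∈ Z, eval z G = 0) : Z.card ≤ a * b := by
  have hq0 : q ≠ 0 := hq.ne_zero
  have hG0 : G ≠ 0 := fun h => hG (h ▸ dvd_zero q)
  have hqp : Prime q := hq.prime
  set c := Z.card with hc
  set n := a + b + c with hn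
  set L := (evL Z).domRestrict (SS n) with hL
  have hrange : LinearMap.range L = ⊤ := by
    rw [hL, LinearMap.range_domRestrict, evL_surj Z hZ n (by omega)]
  have hrn := LinearMap.finrank_range_add_finrank_ker L
  rw [hrange, finrank_top, Module.finrank_fintype_fun_eq_card, Fintype.card_coe] at hrn
  set Qn := (SS (b + c)).map (mulq q) with hQn
  set Gn := (SS (a + c)).map (mulq G) with hGn
  have hle : Qn ⊔ Gn ≤ (LinearMap.ker L).map (SS n).subtype := by
    rw [sup_le_iff]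
    constructor
    · intro u hu
      have huV : u ∈ SS n := map_mulq_le hqa (by omega) hu
      refine ⟨⟨u, huV⟩, ?_, rfl⟩
      obtain ⟨v, _, rfl⟩ := hu
      rw [SetLike.mem_coe, LinearMap.mem_ker]
      funext z
      show eval z.1 (q * v) = 0
      rw [map_mul, h1 z.1 z.2, zero_mul]
    · intro u hu
      have huV : u ∈ SS n := map_mulq_le hGb (by omega) hu
      refine ⟨⟨u, huV⟩, ?_, rfl⟩
      obtain ⟨v, _, rfl⟩ := hu
      rw [SetLike.mem_coe, LinearMap.mem_ker]
      funext z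
      show eval z.1 (G * v) = 0
      rw [map_mul, h2 z.1 z.2, zero_mul]
  have hfr : Module.finrank ℂ ((LinearMap.ker L).map (SS n).subtype) =
      Module.finrank ℂ (LinearMap.ker L) := Submodule.finrank_map_subtype_eq _ _
  have hle' := Submodule.finrank_mono hle
  rw [hfr] at hle'
  have hinf : Qn ⊓ Gn ≤ (SS c).map (mulq (q * G)) := by
    rintro u ⟨⟨v, hv, rfl⟩, ⟨w, hw, hvw⟩⟩
    have hvw' : G * w = q * v := hvw
    have hdvd : q ∣ G * w := ⟨v, hvw'⟩
    rcases hqp.dvd_or_dvd hdvd with h | h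
    · exact absurd h hG
    · obtain ⟨t, rfl⟩ := h
      have hv' : v = G * t := by
        apply mul_left_cancel₀ hq0
        rw [← hvw']
        ring
      refine ⟨t, ?_, ?_⟩
      · have hw' : (q * t).IsHomogeneous (a + c) := hw
        have := homog_cofactor hw' hqa hq0
        rw [Nat.add_sub_cancel_left] at this
        exact this
      · show q * G * t = q * v
        rw [hv']
        ring
  have hinf' := Submodule.finrank_mono hinf
  rw [finrank_map_mulq (mul_ne_zero hq0 hG0)] at hinf'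
  have hsum := Submodule.finrank_sup_add_finrank_inf_eq Qn Gn
  rw [hQn, hGn, finrank_map_mulq hq0, finrank_map_mulq hG0, ← hQn, ← hGn] at hsum
  have d1 := finrank_SS n
  have d2 := finrank_SS (b + c)
  have d3 := finrank_SS (a + c)
  have d4 := finrank_SS c
  nlinarith [d1, d2, d3, d4]

/-- Bezout for a form and a family of forms without common factor. -/
theorem bez {ι : Type*} {E : MP3} {R : ι → MP3} {r : ℕ} (hR : ∀ i, (R i).IsHomogeneous r)
    (hE0 : E ≠ 0) (hirr : ∀ h, Irreducible h → h ∣ E → ∃ i, ¬ h ∣ R i) :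
    ∀ {d : ℕ}, E.IsHomogeneous d → ∀ (Z : Finset (Fin 3 → ℂ)), Proj Z →
      (∀ z ∈ Z, eval z E = 0) → (∀ z ∈ Z, ∀ i, eval z (R i) = 0) → Z.card ≤ d * r := by
  classical
  induction E using WfDvdMonoid.induction_on_irreducible with
  | zero => exact absurd rfl hE0
  | unit u hu =>
    intro d hd Z hZ h1 _
    have : Z = ∅ := by
      rw [Finset.eq_empty_iff_forall_notMem]
      intro z hz
      have := hu.map (eval z)
      rw [h1 z hz] at this
      exact not_isUnit_zero this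
    rw [this]; simp
  | mul a i ha hi ih =>
    intro d hd Z hZ h1 h2
    obtain ⟨k, l, hkl, hk, hl⟩ := homog_of_mul hd hE0
    obtain ⟨j, hj⟩ := hirr i hi (dvd_mul_right i a)
    have c1 : (Z.filter (fun z => eval z i = 0)).card ≤ k * r := by
      refine bez_irr hi hj hk (hR j) _ (hZ.mono (Finset.filter_subset _ _)) ?_ ?_
      · intro z hz; exact (Finset.mem_filter.1 hz).2
      · intro z hz; exact h2 z (Finset.mem_filter.1 hz).1 j
    have c2 : (Z.filter (fun z => ¬ eval z i = 0)).card ≤ l * r := by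
      refine ih ha (fun h hh hd => hirr h hh (dvd_mul_of_dvd_right hd i)) hl _
        (hZ.mono (Finset.filter_subset _ _)) ?_ ?_
      · intro z hz
        obtain ⟨hz1, hz2⟩ := Finset.mem_filter.1 hz
        have := h1 z hz1
        rw [map_mul] at this
        exact (mul_eq_zero.1 this).resolve_left hz2
      · intro z hz; exact h2 z (Finset.mem_filter.1 hz).1
    have := Finset.card_filter_add_card_filter_not (s := Z) (fun z => eval z i = 0)
    rw [← hkl, Nat.add_mul]
    omega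

end Vale.Agent.P287.K13
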