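import Vale.Agent.P287.K13.Alg

set_option linter.all false

/-! Planes adjacent to a plane, in coordinates. -/

namespace Vale.Agent.P287.K13

open MvPolynomial Module

variable {B : Tri6} {p c : Fin 3 → V6} {S T : Fin 3 → (V6 →ₗ[ℂ] ℂ)} {P : Submodule ℂ V6}

theorem exists_fr (hP : Pl B P) : ∃ (p c : Fin 3 → V6) (S T : Fin 3 → (V6 →ₗ[ℂ] ℂ)),
    Fr B p c S T ∧ (∀ i, p i ∈ P) ∧ ∀ x ∈ P, ∀ i, T i x = 0 := by
  obtain ⟨U, hU⟩ := Submodule.exists_isCompl P
  have hr := Submodule.finrank_add_eq_of_isCompl hU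
  rw [finrank_V6, hP.rk] at hr
  obtain ⟨u, w, S, T, h1, h2, h3, h4, h5, h6, h7⟩ :=
    exists_coords hP.rk (show finrank ℂ U = 3 by omega) hU.inf_eq_bot
  refine ⟨u, w, S, T, ⟨h3, h4, h5, h6, h7, fun i j k => hP.iso _ (h1 i) _ (h1 j) _ (h1 k)⟩, h1, ?_⟩
  intro x hx i
  have e1 : ∑ i, T i x • w i ∈ P := by
    have : ∑ i, T i x • w i = x - ∑ i, S i x • u i := by
      conv_rhs => rw [h3 x]
      rw [← h3 x]
      exact (eq_sub_of_add_eq' (h3 x).symm)
    rw [this]
    exact P.sub_mem hx (P.sum_mem fun i _ => P.smul_mem _ (h1 i))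
  have e2 : ∑ i, T i x • w i ∈ U := U.sum_mem fun i _ => U.smul_mem _ (h2 i)
  have e3 : ∑ i, T i x • w i = 0 := by
    have : ∑ i, T i x • w i ∈ P ⊓ U := ⟨e1, e2⟩
    rwa [hU.inf_eq_bot, Submodule.mem_bot] at this
  have e4 := congrArg (T i) e3
  simp only [map_sum, map_smul, h7, smul_eq_mul, map_zero] at e4
  simpa using e4

theorem Fr.T_lc (hF : Fr B p c S T) (y : Fin 3 → ℂ) (i : Fin 3) : T i (lc c y) = y i := by
  simp [lc, map_sum, hF.Tc]

theorem Fr.T_lcp (hF : Fr B p c S T) (y : Fin 3 → ℂ) (i : Fin 3) : T i (lc p y) = 0 := by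
  simp [lc, map_sum, hF.Tp]

theorem Fr.S_lcp (hF : Fr B p c S T) (y : Fin 3 → ℂ) (i : Fin 3) : S i (lc p y) = y i := by
  simp [lc, map_sum, hF.Sp]

theorem Fr.S_lc (hF : Fr B p c S T) (y : Fin 3 → ℂ) (i : Fin 3) : S i (lc c y) = 0 := by
  simp [lc, map_sum, hF.Sc]

theorem Fr.dec' (hF : Fr B p c S T) (x : V6) :
    x = lc p (fun i => S i x) + lc c (fun i => T i x) := hF.dec x

theorem Fr.iso' (hF : Fr B p c S T) (x y z : Fin 3 → ℂ) :
    B (lc p x) (lc p y) (lc p z) = 0 := by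
  simp [lc, map_sum, LinearMap.sum_apply, hF.iso]

/-- smoothness along the plane -/
theorem Fr.smoothP (hB : Good B) (hF : Fr B p c S T) {v : Fin 3 → ℂ} (hv : v ≠ 0) :
    ∃ m, B (lc p v) (lc p v) (c m) ≠ 0 := by
  have h0 : lc p v ≠ 0 := by
    intro h
    apply hv
    funext i
    rw [← hF.S_lcp v i, h, map_zero]
    rfl
  obtain ⟨y, hy⟩ := hB.smooth _ h0
  by_contra hcon
  push Not at hcon
  apply hy
  have e : B (lc p v) (lc p v) (lc c fun i => T i y) = 0 := by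
    rw [show lc c (fun i => T i y) = ∑ i, T i y • c i from rfl, map_sum]
    refine Finset.sum_eq_zero fun i _ => ?_
    rw [map_smul, hcon i, smul_zero]
  rw [hF.dec' y, map_add, hF.iso', zero_add, e]

theorem Fr.span_p (hF : Fr B p c S T) (hP : Pl B P) (hpP : ∀ i, p i ∈ P)
    (hT : ∀ x ∈ P, ∀ i, T i x = 0) {x : V6} (hx : x ∈ P) : x = lc p (fun i => S i x) := by
  have h := hF.dec' x
  have h1 : lc c (fun i => T i x) = 0 := by
    simp [lc, hT x hx]
  rw [h1, add_zero] at h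
  exact h

theorem lc_mem (hpP : ∀ i, p i ∈ P) (x : Fin 3 → ℂ) : lc p x ∈ P :=
  P.sum_mem fun i _ => P.smul_mem _ (hpP i)

/-- the span of `P` and a point outside has dimension four -/
theorem finrank_sup_span (hP : Pl B P) {z : V6} (hz : z ∉ P) :
    finrank ℂ (P ⊔ Submodule.span ℂ {z} : Submodule ℂ V6) = 4 := by
  have h1 : P < P ⊔ Submodule.span ℂ {z} := by
    refine lt_of_le_of_ne le_sup_left fun heq => hz ?_
    rw [heq]
    exact Submodule.mem_sup_right (Submodule.mem_span_singleton_self z)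
  have h2 := Submodule.finrank_lt_finrank_of_lt h1
  have h3 := Submodule.finrank_add_le_finrank_add_finrank P (Submodule.span ℂ {z})
  have h4 := finrank_span_singleton_le z
  have h5 := hP.rk
  omega

/-- no conic of the net vanishes -/
theorem Fr.L_ne (hB : Good B) (hF : Fr B p c S T) (hP : Pl B P) (hpP : ∀ i, p i ∈ P)
    (hT : ∀ x ∈ P, ∀ i, T i x = 0) {y : Fin 3 → ℂ} (hy : y ≠ 0)
    (h : ∀ i j, B (p i) (p j) (lc c y) = 0) : False := by
  have hz : lc c y ∉ P := by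
    intro hz
    apply hy
    funext i
    rw [← hF.T_lc y i, hT _ hz i]
    rfl
  refine no_small hB hP.rk (L := P ⊔ Submodule.span ℂ {lc c y})
    (by rw [finrank_sup_span hP hz]) ?_
  intro x hx l hl
  obtain ⟨a, ha, b, hb, rfl⟩ := Submodule.mem_sup.mp hl
  obtain ⟨t, rfl⟩ := Submodule.mem_span_singleton.mp hb
  rw [map_add, hP.iso x hx x hx a ha, zero_add, map_smul]
  have hx' := hF.span_p hP hpP hT hx
  rw [hx']
  have : B (lc p fun i => S i x) (lc p fun i => S i x) (lc c y) = 0 := by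
    rw [lc]
    simp only [map_sum, LinearMap.sum_apply, map_smul, LinearMap.smul_apply, h, smul_zero,
      Finset.sum_const_zero]
  rw [this, smul_zero]

/-- the data of an adjacent plane -/
theorem node_of_plane (hB : Good B) (hP : Pl B P) (hF : Fr B p c S T) (hpP : ∀ i, p i ∈ P)
    {Q : Submodule ℂ V6} (hQ : Pl B Q) (hadj : Adj P Q) :
    ∃ z ∈ Q, z ∉ P ∧ ∃ α α' : Fin 3 → ℂ, ∃ β β' : ℂ, FacL B p c (fun i => T i z) α α' ∧
      (∀ i, B (p i) (lc c fun i => T i z) (lc c fun i => T i z) = (β' * α i + β * α' i) / 3) ∧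
      B (lc c fun i => T i z) (lc c fun i => T i z) (lc c fun i => T i z) = β * β' := by
  have hr : finrank ℂ (P ⊓ Q : Submodule ℂ V6) = 2 := hadj
  obtain ⟨x0, hx0, hx0'⟩ := exists_notMem_of_finrank_lt (U := P ⊓ Q) (W := P)
    (by rw [hr, hP.rk]; omega)
  obtain ⟨z, hz, hz'⟩ := exists_notMem_of_finrank_lt (U := P ⊓ Q) (W := Q)
    (by rw [hr, hQ.rk]; omega)
  have hzP : z ∉ P := fun h => hz' ⟨h, hz⟩
  have hm : ∀ i, ∃ m ∈ P ⊓ Q, ∃ a : ℂ, p i = m + a • x0 := fun i =>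
    decomp inf_le_left (by rw [hr, hP.rk]) hx0 hx0' (hpP i)
  choose m hmem a ha using hm
  refine ⟨z, hz, hzP, ?_⟩
  have s12 := hB.s12
  have s23 := hB.s23
  -- the values with `z`
  have h1 : ∀ i j, B (p i) (p j) z = (a i * (6 * B (p j) x0 z - 3 * a j * B x0 x0 z) +
      a j * (6 * B (p i) x0 z - 3 * a i * B x0 x0 z)) / 6 := by
    intro i j
    have e := hQ.iso _ (hmem i).2 _ (hmem j).2 _ hz
    have e1 : B x0 (m j) z = B (m j) x0 z := s12 _ _ _
    rw [ha i, ha j]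
    simp only [map_add, map_smul, LinearMap.add_apply, LinearMap.smul_apply, smul_eq_mul, e, e1]
    ring
  have h2 : ∀ i, B (p i) z z = a i * B x0 z z := by
    intro i
    have e := hQ.iso _ (hmem i).2 _ hz _ hz
    rw [ha i]
    simp only [map_add, map_smul, LinearMap.add_apply, LinearMap.smul_apply, smul_eq_mul, e]
    ring
  have h3 : B z z z = 0 := hQ.iso _ hz _ hz _ hz
  set al : Fin 3 → ℂ := fun i => 6 * B (p i) x0 z - 3 * a i * B x0 x0 z with hal
  have h1' : ∀ i j, B (p i) (p j) z = (a i * al j + a j * al i) / 6 := h1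
  have hz1 : (lc c fun i => T i z) = z - (S 0 z • p 0 + S 1 z • p 1 + S 2 z • p 2) := by
    have := hF.dec' z
    have e : lc p (fun i => S i z) = S 0 z • p 0 + S 1 z • p 1 + S 2 z • p 2 := by
      rw [lc, Fin.sum_univ_three]
    rw [e] at this
    exact eq_sub_of_add_eq' this.symm
  have g1 : ∀ i j, B (p i) z (p j) = (a i * al j + a j * al i) / 6 := by
    intro i j; rw [s23, h1']
  have g2 : ∀ i j, B z (p i) (p j) = (a i * al j + a j * al i) / 6 := by
    intro i j; rw [s12, g1]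
  have g3 : ∀ i, B z (p i) z = a i * B x0 z z := by
    intro i; rw [s12, h2]
  have g4 : ∀ i, B z z (p i) = a i * B x0 z z := by
    intro i; rw [s23, g3]
  have gi := hF.iso
  refine ⟨a, al, -(S 0 z * a 0 + S 1 z * a 1 + S 2 z * a 2),
    3 * B x0 z z - (S 0 z * al 0 + S 1 z * al 1 + S 2 z * al 2), ?_, ?_, ?_⟩
  · intro i j
    rw [hz1]
    simp only [map_sub, map_add, map_smul, smul_eq_mul, gi, h1']
    ring
  · intro i
    rw [hz1]
    simp only [map_sub, map_add, map_smul, LinearMap.add_apply, LinearMap.smul_apply,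
      LinearMap.sub_apply, smul_eq_mul, gi, h1', g1, h2]
    ring
  · rw [hz1]
    simp only [map_sub, map_add, map_smul, LinearMap.add_apply, LinearMap.smul_apply,
      LinearMap.sub_apply, smul_eq_mul, gi, h1', g1, g2, g3, g4, h2, h3]
    ring

/-- the plane of a split quadric -/
theorem plane_of_node (hB : Good B) (hP : Pl B P) (hF : Fr B p c S T) (hpP : ∀ i, p i ∈ P)
    (hT : ∀ x ∈ P, ∀ i, T i x = 0) {y : Fin 3 → ℂ} (hy : y ≠ 0) {α α' : Fin 3 → ℂ} {β β' : ℂ}
    (hL : FacL B p c y α α')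
    (hq : ∀ i, B (p i) (lc c y) (lc c y) = (β' * α i + β * α' i) / 3)
    (hk : B (lc c y) (lc c y) (lc c y) = β * β') :
    ∃ Q, Pl B Q ∧ (∃ z ∈ Q, ∀ i, T i z = y i) ∧ ∀ z ∈ Q, ∃ t : ℂ, ∀ i, T i z = t * y i := by
  obtain ⟨i0, hi0⟩ : ∃ i, α i ≠ 0 := by
    by_contra hcon
    push Not at hcon
    refine hF.L_ne hB hP hpP hT hy fun i j => ?_
    rw [hL i j, hcon i, hcon j]; ring
  obtain ⟨b, hb⟩ : ∃ b, y b ≠ 0 := by
    by_contra hcon
    push Not at hcon
    exact hy (funext hcon)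
  set g : V6 →ₗ[ℂ] ℂ := (α 0 • S 0 + α 1 • S 1 + α 2 • S 2) + (β * (y b)⁻¹) • T b with hg
  have hz : lc c y ∉ P := by
    intro hz
    apply hb
    rw [← hF.T_lc y b, hT _ hz b]
  have gp : ∀ x : Fin 3 → ℂ, g (lc p x) = α 0 * x 0 + α 1 * x 1 + α 2 * x 2 := by
    intro x
    simp only [hg, LinearMap.add_apply, LinearMap.smul_apply, hF.S_lcp, hF.T_lcp, smul_eq_mul]
    ring
  have gc : g (lc c y) = β := by
    simp only [hg, LinearMap.add_apply, LinearMap.smul_apply, hF.S_lc, hF.T_lc, smul_eq_mul]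
    field_simp
    ring
  set U := P ⊔ Submodule.span ℂ {lc c y} with hU
  have hlU : lc c y ∈ U := Submodule.mem_sup_right (Submodule.mem_span_singleton_self _)
  have hpU : ∀ x, lc p x ∈ U := fun x => Submodule.mem_sup_left (lc_mem hpP x)
  refine ⟨U ⊓ LinearMap.ker g, ⟨?_, ?_⟩, ?_, ?_⟩
  · have h1 := finrank_inf_ker (M := U) (l := g) ⟨lc p (Pi.single i0 1), hpU _, by
      rw [gp]
      fin_cases i0 <;> simpa using hi0⟩
    rw [finrank_sup_span hP hz] at h1
    omega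
  · apply iso_of_diag hB
    rintro x ⟨hxU, hxg⟩
    obtain ⟨s, hs, w, hw, rfl⟩ := Submodule.mem_sup.mp hxU
    obtain ⟨t, rfl⟩ := Submodule.mem_span_singleton.mp hw
    have hs' := hF.span_p hP hpP hT hs
    set σ : Fin 3 → ℂ := fun i => S i s with hσ
    rw [hs'] at hxg ⊢
    rw [SetLike.mem_coe, LinearMap.mem_ker, map_add, map_smul, gp, gc, smul_eq_mul] at hxg
    have s12 := hB.s12
    have s23 := hB.s23
    have e1 : lc p σ = σ 0 • p 0 + σ 1 • p 1 + σ 2 • p 2 := by rw [lc, Fin.sum_univ_three]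
    have c1 : ∀ i j, B (p i) (lc c y) (p j) = (α i * α' j + α j * α' i) / 6 := fun i j => by
      rw [s23, hL]
    have c2 : ∀ i j, B (lc c y) (p i) (p j) = (α i * α' j + α j * α' i) / 6 := fun i j => by
      rw [s12, c1]
    have c3 : ∀ i, B (lc c y) (p i) (lc c y) = (β' * α i + β * α' i) / 3 := fun i => by
      rw [s12, hq]
    have c4 : ∀ i, B (lc c y) (lc c y) (p i) = (β' * α i + β * α' i) / 3 := fun i => by
      rw [s23, c3]
    have c0 : ∀ i j, B (p i) (p j) (lc c y) = (α i * α' j + α j * α' i) / 6 := hL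
    rw [e1]
    simp only [map_add, map_smul, LinearMap.add_apply, LinearMap.smul_apply, smul_eq_mul,
      hF.iso, c0, c1, c2, c3, c4, hq, hk]
    linear_combination t * ((α' 0 * σ 0 + α' 1 * σ 1 + α' 2 * σ 2) + t * β') * hxg
  · refine ⟨lc p ((-(β / α i0)) • Pi.single i0 1) + lc c y, ⟨?_, ?_⟩, ?_⟩
    · exact U.add_mem (hpU _) hlU
    · rw [SetLike.mem_coe, LinearMap.mem_ker, map_add, gp, gc]
      fin_cases i0 <;> simp at hi0 ⊢ <;> field_simp <;> ring
    · intro i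
      rw [map_add, hF.T_lcp, hF.T_lc, zero_add]
  · rintro z ⟨hzU, -⟩
    obtain ⟨s, hs, w, hw, rfl⟩ := Submodule.mem_sup.mp hzU
    obtain ⟨t, rfl⟩ := Submodule.mem_span_singleton.mp hw
    refine ⟨t, fun i => ?_⟩
    rw [map_add, hT s hs i, map_smul, hF.T_lc, zero_add, smul_eq_mul]

end Vale.Agent.P287.K13
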