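import Vale.Agent.P287.MathlibUsed

set_option linter.all false

/-! A factor of a homogeneous polynomial over a field is homogeneous. -/

namespace Vale.Agent.P287.K13

open MvPolynomial

variable {σ : Type*}

theorem wt1 (v : σ →₀ ℕ) : Finsupp.weight (1 : σ → ℕ) v = v.degree := by
  rw [Finsupp.degree_eq_weight_one]; rfl

/-- `X i` goes to `X i * T` -/
noncomputable def tw : MvPolynomial σ ℂ →ₐ[ℂ] Polynomial (MvPolynomial σ ℂ) :=
  aeval (fun i => Polynomial.C (X i) * Polynomial.X)

theorem tw_monomial (m : σ →₀ ℕ) (r : ℂ) :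
    tw (monomial m r) = Polynomial.C (monomial m r) * Polynomial.X ^ m.degree := by
  classical
  rw [tw, aeval_monomial, Finsupp.prod, monomial_eq (s := m) (a := r), Finsupp.prod]
  simp only [mul_pow, Finset.prod_mul_distrib, map_mul, map_prod, map_pow]
  rw [Finset.prod_pow_eq_pow_sum, Finsupp.degree_apply]
  have : (algebraMap ℂ (Polynomial (MvPolynomial σ ℂ))) r = Polynomial.C (C r) := rfl
  rw [this]
  ring

theorem coeff_tw (a : MvPolynomial σ ℂ) (v : σ →₀ ℕ) (j : ℕ) :
    coeff v ((tw a).coeff j) = if v.degree = j then coeff v a else 0 := by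
  classical
  induction a using MvPolynomial.induction_on' with
  | monomial m r =>
    rw [tw_monomial]
    simp only [Polynomial.coeff_C_mul, Polynomial.coeff_X_pow, coeff_monomial]
    by_cases h1 : j = m.degree
    · subst h1
      by_cases h2 : m = v
      · subst h2; simp
      · simp [h2]
    · by_cases h2 : m = v
      · subst h2; simp [h1, Ne.symm h1]
      · simp [h1, h2]
  | add p q hp hq =>
    rw [map_add, Polynomial.coeff_add, coeff_add, coeff_add, hp, hq]
    split_ifs <;> simp

theorem tw_of_homog {a : MvPolynomial σ ℂ} {n : ℕ} (h : a.IsHomogeneous n) :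
    tw a = Polynomial.C a * Polynomial.X ^ n := by
  classical
  ext j v
  rw [coeff_tw, Polynomial.coeff_C_mul, Polynomial.coeff_X_pow]
  by_cases hv : coeff v a = 0
  · by_cases hj : j = n <;> simp [hv, hj]
  · have hd : v.degree = n := by
      have := h hv
      rwa [wt1] at this
    by_cases hj : j = n
    · subst hj; simp [hd]
    · have : ¬ v.degree = j := by rw [hd]; exact Ne.symm hj
      simp [hj, this]

theorem homog_of_tw {a : MvPolynomial σ ℂ} {n : ℕ} {b : MvPolynomial σ ℂ}
    (h : tw a = Polynomial.C b * Polynomial.X ^ n) : a.IsHomogeneous n := by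
  classical
  intro v hv
  rw [wt1]
  by_contra hne
  have h1 := coeff_tw a v v.degree
  rw [h, Polynomial.coeff_C_mul, Polynomial.coeff_X_pow] at h1
  simp only [hne, if_false, mul_zero, coeff_zero, if_true] at h1
  exact hv h1.symm

theorem homog_of_mul {a b : MvPolynomial σ ℂ} {n : ℕ} (h : (a * b).IsHomogeneous n)
    (hab : a * b ≠ 0) : ∃ k l, k + l = n ∧ a.IsHomogeneous k ∧ b.IsHomogeneous l := by
  have ha : a ≠ 0 := left_ne_zero_of_mul hab
  have hb : b ≠ 0 := right_ne_zero_of_mul hab
  have h1 := tw_of_homog h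
  rw [map_mul] at h1
  have hC : Polynomial.C (a * b) ≠ 0 := by rwa [Ne, Polynomial.C_eq_zero]
  have h0 : tw a * tw b ≠ 0 := by
    rw [h1]
    exact mul_ne_zero hC (pow_ne_zero _ Polynomial.X_ne_zero)
  have ha' : tw a ≠ 0 := left_ne_zero_of_mul h0
  have hb' : tw b ≠ 0 := right_ne_zero_of_mul h0
  have d1 := congrArg Polynomial.natDegree h1
  have d2 := congrArg Polynomial.natTrailingDegree h1
  rw [Polynomial.natDegree_mul ha' hb', Polynomial.natDegree_C_mul_X_pow _ _ (by exact hab)] at d1
  rw [Polynomial.natTrailingDegree_mul ha' hb', Polynomial.natTrailingDegree_mul_X_pow hC,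
    Polynomial.natTrailingDegree_C, zero_add] at d2
  have e1 := Polynomial.natTrailingDegree_le_natDegree (tw a)
  have e2 := Polynomial.natTrailingDegree_le_natDegree (tw b)
  have key : ∀ p : Polynomial (MvPolynomial σ ℂ), p.natTrailingDegree = p.natDegree →
      p = Polynomial.C (p.coeff p.natDegree) * Polynomial.X ^ p.natDegree := by
    intro p hp
    ext1 j
    rw [Polynomial.coeff_C_mul, Polynomial.coeff_X_pow]
    rcases lt_trichotomy j p.natDegree with hj | hj | hj
    · rw [Polynomial.coeff_eq_zero_of_lt_natTrailingDegree (by omega)]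
      simp [hj.ne]
    · subst hj; simp
    · rw [Polynomial.coeff_eq_zero_of_natDegree_lt hj]
      simp [hj.ne']
  exact ⟨_, _, d1, homog_of_tw (key _ (by omega)), homog_of_tw (key _ (by omega))⟩

theorem homog_of_dvd {a b : MvPolynomial σ ℂ} {n : ℕ} (h : b.IsHomogeneous n) (hb : b ≠ 0)
    (hab : a ∣ b) : ∃ k, k ≤ n ∧ a.IsHomogeneous k := by
  obtain ⟨c, rfl⟩ := hab
  obtain ⟨k, l, h1, h2, -⟩ := homog_of_mul h hb
  exact ⟨k, by omega, h2⟩

theorem homog_right {a b : MvPolynomial σ ℂ} {n k : ℕ} (h : (a * b).IsHomogeneous n)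
    (ha : a.IsHomogeneous k) (ha0 : a ≠ 0) : ∃ l, (b ≠ 0 → k + l = n) ∧ b.IsHomogeneous l := by
  by_cases hb : b = 0
  · exact ⟨0, fun h => absurd hb h, by rw [hb]; exact isHomogeneous_zero _ _ _⟩
  · obtain ⟨k', l, h1, h2, h3⟩ := homog_of_mul h (mul_ne_zero ha0 hb)
    have : k = k' := ha.inj_right h2 ha0
    exact ⟨l, fun _ => by omega, h3⟩

/-- the cofactor of a form in a form -/
theorem homog_cofactor {a b : MvPolynomial σ ℂ} {n k : ℕ} (h : (a * b).IsHomogeneous n)
    (ha : a.IsHomogeneous k) (ha0 : a ≠ 0) : b.IsHomogeneous (n - k) := by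
  obtain ⟨l, h1, h2⟩ := homog_right h ha ha0
  by_cases hb : b = 0
  · rw [hb]; exact isHomogeneous_zero _ _ _
  · have := h1 hb
    rw [show n - k = l by omega]
    exact h2

/-- a homogeneous polynomial of degree zero which is not zero is a unit -/
theorem isUnit_of_homog_zero {a : MvPolynomial σ ℂ} (h : a.IsHomogeneous 0) (ha : a ≠ 0) :
    IsUnit a := by
  have h1 : a.totalDegree = 0 := by
    rw [totalDegree_zero_iff_isHomogeneous]; exact h
  rw [totalDegree_eq_zero_iff_eq_C] at h1
  rw [h1]
  apply IsUnit.map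
  rw [isUnit_iff_ne_zero]
  intro h2
  rw [h2, C_0] at h1
  exact ha h1

theorem pos_of_irred {a : MvPolynomial σ ℂ} {n : ℕ} (h : a.IsHomogeneous n)
    (ha : Irreducible a) : 0 < n := by
  rcases Nat.eq_zero_or_pos n with h0 | h0
  · subst h0
    exact absurd (isUnit_of_homog_zero h ha.ne_zero) ha.not_isUnit
  · exact h0

end Vale.Agent.P287.K13
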