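import Vale.Agent.P287.K13.Bad

set_option linter.all false

/-! At most thirteen residual pairs of planes at a plane of a smooth cubic fourfold whose planes
meet pairwise. -/

namespace Vale.Agent.P287.K13

open MvPolynomial Module

variable {B : Tri6} {p c : Fin 3 → V6} {S T : Fin 3 → (V6 →ₗ[ℂ] ℂ)} {P : Submodule ℂ V6}

theorem eval_smul_homog {h : MP3} {k : ℕ} (hh : h.IsHomogeneous k) (t : ℂ) (x : Fin 3 → ℂ) :
    eval (t • x) h = t ^ k * eval x h := by
  classical
  rw [eval_eq, eval_eq, Finset.mul_sum]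
  refine Finset.sum_congr rfl fun d hd => ?_
  have hdeg : d.degree = k := by
    have := hh (mem_support_iff.1 hd)
    rwa [wt1] at this
  have : ∏ i ∈ d.support, (t • x) i ^ d i = t ^ k * ∏ i ∈ d.support, x i ^ d i := by
    simp only [Pi.smul_apply, smul_eq_mul, mul_pow, Finset.prod_mul_distrib]
    rw [Finset.prod_pow_eq_pow_sum, ← Finsupp.degree_apply, hdeg]
  rw [this]
  ring

/-- every line through a point outside the curve meets the curve -/
theorem exists_root_line {h : MP3} {k : ℕ} (hh : h.IsHomogeneous k) (hk : 0 < k)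
    {o : Fin 3 → ℂ} (ho : eval o h ≠ 0) (b : Fin 3 → ℂ) : ∃ s : ℂ, eval (s • o + b) h = 0 := by
  by_contra hcon
  push Not at hcon
  set q : Polynomial ℂ := aeval (fun i => Polynomial.C (o i) * Polynomial.X + Polynomial.C (b i)) h
    with hq
  set r : Polynomial ℂ := aeval (fun i => Polynomial.C (o i) + Polynomial.C (b i) * Polynomial.X) h
    with hr
  have ev : ∀ (g : Fin 3 → Polynomial ℂ) (s : ℂ),
      Polynomial.eval s (aeval g h) = eval (fun i => Polynomial.eval s (g i)) h := by
    intro g s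
    have : (Polynomial.evalRingHom s).comp (aeval g : MP3 →ₐ[ℂ] Polynomial ℂ).toRingHom =
        (eval fun i => Polynomial.eval s (g i)) := by
      apply MvPolynomial.ringHom_ext
      · intro a; simp
      · intro i; simp
    exact congrArg (fun f => f h) this
  have hqe : ∀ s, Polynomial.eval s q = eval (s • o + b) h := by
    intro s
    have e : (fun i => Polynomial.eval s (Polynomial.C (o i) * Polynomial.X + Polynomial.C (b i))) =
        s • o + b := by
      funext i
      simp only [Polynomial.eval_add, Polynomial.eval_mul, Polynomial.eval_C, Polynomial.eval_X,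
        Pi.add_apply, Pi.smul_apply, smul_eq_mul]
      ring
    rw [hq, ev, e]
  have hre : ∀ s, Polynomial.eval s r = eval (o + s • b) h := by
    intro s
    have e : (fun i => Polynomial.eval s (Polynomial.C (o i) + Polynomial.C (b i) * Polynomial.X)) =
        o + s • b := by
      funext i
      simp only [Polynomial.eval_add, Polynomial.eval_mul, Polynomial.eval_C, Polynomial.eval_X,
        Pi.add_apply, Pi.smul_apply, smul_eq_mul]
      ring
    rw [hr, ev, e]
  -- `q` is constant
  have hq0 : q.natDegree = 0 := by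
    by_contra hne
    obtain ⟨s, hs⟩ := IsAlgClosed.exists_root q (by
      intro h1
      exact hne (Polynomial.natDegree_eq_of_degree_eq_some h1))
    apply hcon s
    rw [← hqe s]
    exact hs
  obtain ⟨a, ha⟩ : ∃ a, q = Polynomial.C a := ⟨_, Polynomial.eq_C_of_natDegree_eq_zero hq0⟩
  have hrq : r = Polynomial.C a * Polynomial.X ^ k := by
    apply Polynomial.eq_of_infinite_eval_eq
    have hinf : Set.Infinite {t : ℂ | t ≠ 0} := by
      have : {t : ℂ | t ≠ 0} = ({0} : Set ℂ)ᶜ := by ext; simp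
      rw [this]
      exact (Set.finite_singleton (0 : ℂ)).infinite_compl
    refine hinf.mono ?_
    intro t ht
    have ht0 : t ≠ 0 := ht
    show Polynomial.eval t r = Polynomial.eval t (Polynomial.C a * Polynomial.X ^ k)
    have e1 : o + t • b = t • (t⁻¹ • o + b) := by
      rw [smul_add, smul_smul, mul_inv_cancel₀ ht0, one_smul]
    rw [hre, e1, eval_smul_homog hh, ← hqe, ha]
    simp
    ring
  apply ho
  have := hre 0
  rw [hrq] at this
  simp [hk.ne'] at this
  exact this.symm

/-- infinitely many points on a plane curve -/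
theorem exists_zeros {h : MP3} {k : ℕ} (hh : h.IsHomogeneous k) (hk : 0 < k) (h0 : h ≠ 0) :
    ∃ y : ℂ → (Fin 3 → ℂ), (∀ s, eval (y s) h = 0) ∧ (∀ s, y s ≠ 0) ∧
      ∀ s t, s ≠ t → ∀ r : ℂ, y s ≠ r • y t := by
  obtain ⟨o, ho⟩ : ∃ o, eval o h ≠ 0 := by
    by_contra hcon
    push Not at hcon
    exact h0 (MvPolynomial.funext fun x => by rw [hcon x, map_zero])
  have hone : o ≠ 0 := by
    rintro rfl
    apply ho
    have := eval_smul_homog hh 0 (0 : Fin 3 → ℂ)
    rw [zero_smul, zero_pow hk.ne', zero_mul] at this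
    exact this
  obtain ⟨i, hi⟩ : ∃ i, o i ≠ 0 := by
    by_contra hcon
    push Not at hcon
    exact hone (funext hcon)
  have hroot := fun s : ℂ => exists_root_line hh hk ho
    (Pi.single (i + 1) 1 + s • Pi.single (i + 2) 1)
  choose σ hσ using hroot
  have n1 : i ≠ i + 1 := by fin_cases i <;> decide
  have n2 : i ≠ i + 2 := by fin_cases i <;> decide
  have n3 : i + 1 ≠ i + 2 := by fin_cases i <;> decide
  have ci : ∀ s, (σ s • o + (Pi.single (i + 1) 1 + s • Pi.single (i + 2) 1) : Fin 3 → ℂ) i =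
      σ s * o i := by
    intro s
    simp [Pi.single_apply, n1, n2]
  have cj : ∀ s, (σ s • o + (Pi.single (i + 1) 1 + s • Pi.single (i + 2) 1) : Fin 3 → ℂ) (i + 1) =
      σ s * o (i + 1) + 1 := by
    intro s
    simp [Pi.single_apply, n3]
  have ck : ∀ s, (σ s • o + (Pi.single (i + 1) 1 + s • Pi.single (i + 2) 1) : Fin 3 → ℂ) (i + 2) =
      σ s * o (i + 2) + s := by
    intro s
    simp [Pi.single_apply, n3.symm]
  refine ⟨fun s => σ s • o + (Pi.single (i + 1) 1 + s • Pi.single (i + 2) 1), hσ, ?_, ?_⟩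
  · intro s hs
    have e1 : σ s * o i = 0 := (ci s).symm.trans (congrFun hs i)
    have e2 : σ s * o (i + 1) + 1 = 0 := (cj s).symm.trans (congrFun hs (i + 1))
    have : σ s = 0 := (mul_eq_zero.1 e1).resolve_right hi
    rw [this] at e2
    simp at e2
  · intro s t hst r hr
    have e1 : σ s * o i = r * (σ t * o i) := by
      rw [← ci s, ← ci t]; exact congrFun hr i
    have e2 : σ s * o (i + 1) + 1 = r * (σ t * o (i + 1) + 1) := by
      rw [← cj s, ← cj t]; exact congrFun hr (i + 1)
    have e3 : σ s * o (i + 2) + s = r * (σ t * o (i + 2) + t) := by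
      rw [← ck s, ← ck t]; exact congrFun hr (i + 2)
    have f1 : σ s = r * σ t := by
      apply mul_right_cancel₀ hi
      linear_combination e1
    have f2 : r = 1 := by
      rw [f1] at e2
      linear_combination -e2
    rw [f1, f2] at e3
    apply hst
    linear_combination e3

/-- the discriminant cubic does not vanish -/
theorem Ep_ne (hB : Good B) (hF : Fr B p c S T) (hP : Pl B P) (hpP : ∀ i, p i ∈ P)
    (hT : ∀ x ∈ P, ∀ i, T i x = 0) : Ep B p c ≠ 0 := by
  intro h0
  obtain ⟨y, -, h2, h3⟩ := exists_zeros (isHomogeneous_X ℂ (0 : Fin 3)) one_pos (X_ne_zero 0)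
  refine bad_four hB hF hP hpP hT (fun i => y (i : ℕ)) (fun i => h2 _)
    (fun i j hij => h3 _ _ (fun h => hij (Fin.ext (by exact_mod_cast h)))) fun i => ?_
  refine ⟨?_, fun m => ?_⟩
  · rw [h0, map_zero]
  · rw [h0, map_zero, map_zero]

/-- a square factor of the discriminant on the cubic gives infinitely many planes -/
theorem no_square (hB : Good B) (hF : Fr B p c S T) (hP : Pl B P) (hpP : ∀ i, p i ∈ P)
    (hT : ∀ x ∈ P, ∀ i, T i x = 0) (hfin : {W | Pl B W}.Finite) {h : MP3}
    (hh : Irreducible h) (hE : h ∣ Ep B p c) (hR : ∀ i, h ∣ Rp B p c i)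
    (hD : h * h ∣ Dp B p c) : False := by
  have hE0 := Ep_ne hB hF hP hpP hT
  obtain ⟨k, -, hk⟩ := homog_of_dvd (Ep_homog B p c) hE0 hE
  obtain ⟨y, y1, y2, y3⟩ := exists_zeros hk (pos_of_irred hk hh) hh.ne_zero
  -- only finitely many bad parameters
  have hbadfin : {s : ℂ | Bad B p c (y s)}.Finite := by
    by_contra hinf
    obtain ⟨t, ht, htc⟩ := Set.Infinite.exists_subset_card_eq hinf 4
    let e : Fin 4 ≃ t := (Fintype.equivFinOfCardEq (by simp [htc])).symm
    exact bad_four hB hF hP hpP hT (fun i => y (e i)) (fun i => y2 _)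
      (fun i j hij => y3 _ _ (fun h => hij (e.injective (Subtype.ext h)))) (fun i => ht (e i).2)
  have hinf : {s : ℂ | ¬ Bad B p c (y s)}.Infinite := hbadfin.infinite_compl
  -- a plane for each other parameter
  have hpl : ∀ s, ¬ Bad B p c (y s) →
      ∃ Q, Pl B Q ∧ (∃ z ∈ Q, ∀ i, T i z = y s i) ∧ ∀ z ∈ Q, ∃ t : ℂ, ∀ i, T i z = t * y s i := by
    intro s hs
    have evd : ∀ f : MP3, h ∣ f → eval (y s) f = 0 := by
      rintro _ ⟨g, rfl⟩
      rw [map_mul, y1, zero_mul]
    obtain ⟨α, α', hL⟩ := fac_of_Ep (p := p) (c := c) hB (evd _ hE)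
    obtain ⟨m, hm⟩ : ∃ m, eval (y s) (pderiv m (Ep B p c)) ≠ 0 := by
      by_contra hcon
      push Not at hcon
      exact hs ⟨evd _ hE, hcon⟩
    have hn : crs α α' ≠ 0 := by
      intro h0
      apply hm
      rw [eval_dEp_fac hL m hB.s12, h0]
      simp [lc]
    have hnq : nq B p c (y s) (crs α α') = 0 := by
      by_contra hne
      apply hn
      funext i
      have := eval_Rp_fac hL i
      rw [evd _ (hR i)] at this
      have h36 : (-(1 / 36) : ℂ) ≠ 0 := by norm_num
      have h2 := (mul_eq_zero.1 this.symm).resolve_right hne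
      exact (mul_eq_zero.1 h2).resolve_left h36
    obtain ⟨β, β', hq⟩ := solve_q (fun i => eval (y s) (qp B p c i)) α α' hn hnq
    have hdD := eval_dDp_fac hL hq m
    have hD0 : eval (y s) (pderiv m (Dp B p c)) = 0 := by
      obtain ⟨g, hg⟩ := hD
      rw [hg]
      simp only [Derivation.leibniz, map_add, map_mul, smul_eq_mul, y1, zero_mul, mul_zero,
        add_zero]
    rw [hD0] at hdD
    have h3 := (mul_eq_zero.1 hdD.symm).resolve_right hm
    have h4 : eval (y s) (kp B c) = β * β' := by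
      have h5 := (mul_eq_zero.1 h3).resolve_left (by norm_num)
      linear_combination h5
    rw [eval_kp] at h4
    exact plane_of_node hB hP hF hpP hT (y2 s) hL (fun i => by rw [← hq i, eval_qp]) h4
  choose! Q hQ using hpl
  refine hinf.not_finite ?_ |>.elim
  refine Set.Finite.of_finite_image (f := Q) (hfin.subset ?_) ?_
  · rintro _ ⟨s, hs, rfl⟩
    exact (hQ s hs).1
  · intro s hs t ht hst
    by_contra hne
    obtain ⟨z, hz, hz'⟩ := (hQ s hs).2.1
    rw [hst] at hz
    obtain ⟨r, hr⟩ := (hQ t ht).2.2 z hz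
    apply y3 s t hne r
    funext i
    rw [Pi.smul_apply, smul_eq_mul, ← hr i, hz' i]

/-- a linear form with a zero at which all derivatives vanish is zero -/
theorem no_crit_linear {g : MP3} (hg : g.IsHomogeneous 1) {z : Fin 3 → ℂ}
    (h : ∀ m, eval z (pderiv m g) = 0) : g = 0 := by
  have h1 : ∀ m, pderiv m g = 0 := by
    intro m
    have h2 : (pderiv m g).IsHomogeneous 0 := hg.pderiv
    have h3 : (pderiv m g).totalDegree = 0 := by
      rw [totalDegree_zero_iff_isHomogeneous]; exact h2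
    rw [totalDegree_eq_zero_iff_eq_C] at h3
    have h4 := h m
    rw [h3, eval_C] at h4
    rw [h3, h4, C_0]
  have h5 := hg.sum_X_mul_pderiv
  simp only [h1, mul_zero, Finset.sum_const_zero, one_smul] at h5
  exact h5.symm

/-- the bound in coordinates -/
theorem node_bound (hB : Good B) (hF : Fr B p c S T) (hP : Pl B P) (hpP : ∀ i, p i ∈ P)
    (hT : ∀ x ∈ P, ∀ i, T i x = 0) (hfin : {W | Pl B W}.Finite) {Z : Finset (Fin 3 → ℂ)}
    (hZ : Proj Z) (hE : ∀ z ∈ Z, eval z (Ep B p c) = 0)
    (hR : ∀ z ∈ Z, ∀ i, eval z (Rp B p c i) = 0)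
    (hD : ∀ z ∈ Z, ∀ m, eval z (pderiv m (Dp B p c)) = 0) : Z.card ≤ 13 := by
  classical
  have hE0 := Ep_ne hB hF hP hpP hT
  -- a common divisor of maximal degree
  let good : ℕ → Prop := fun e => ∃ g : MP3, g.IsHomogeneous e ∧ g ∣ Ep B p c ∧
    ∀ i, g ∣ Rp B p c i
  have hgood0 : good 0 := ⟨1, isHomogeneous_one _ _, one_dvd _, fun i => one_dvd _⟩
  have hle : ∀ e, good e → e ≤ 3 := by
    rintro e ⟨g, hg, hgE, -⟩
    obtain ⟨k, hk, hk'⟩ := homog_of_dvd (Ep_homog B p c) hE0 hgE
    have hg0 : g ≠ 0 := fun h => hE0 (by rw [h, zero_dvd_iff] at hgE; exact hgE)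
    rw [hg.inj_right hk' hg0]
    exact hk
  set e := Nat.findGreatest good 3 with he
  have hge : good e := Nat.findGreatest_spec (Nat.zero_le 3) hgood0
  have hmax : ∀ e', good e' → e' ≤ e := fun e' h => Nat.le_findGreatest (hle e' h) h
  have he3 : e ≤ 3 := hle e hge
  obtain ⟨g, hg, ⟨E', hE'⟩, hgR⟩ := hge
  choose R' hR' using hgR
  have hg0 : g ≠ 0 := by
    rintro rfl
    rw [zero_mul] at hE'
    exact hE0 hE'
  have hE'0 : E' ≠ 0 := by
    rintro rfl
    rw [mul_zero] at hE'
    exact hE0 hE'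
  have hE'h : E'.IsHomogeneous (3 - e) := by
    have := Ep_homog B p c
    rw [hE'] at this
    exact homog_cofactor this hg hg0
  have hR'h : ∀ i, (R' i).IsHomogeneous (4 - e) := by
    intro i
    have := Rp_homog B p c i
    rw [hR'] at this
    exact homog_cofactor this hg hg0
  set D' : MP3 := C 4 * kp B c * E' - C 3 * (qp B p c 0 * R' 0 + qp B p c 1 * R' 1 +
    qp B p c 2 * R' 2) with hD'
  have hDD : Dp B p c = g * D' := by
    rw [Dp, hE', hR' 0, hR' 1, hR' 2, hD']; ring
  have hD'h : D'.IsHomogeneous (6 - e) := by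
    have k := kp_homog B c
    have q := qp_homog B p c
    have h4 : (C 4 * kp B c * E').IsHomogeneous (6 - e) := by
      have := ((isHomogeneous_C (Fin 3) (4 : ℂ)).mul k).mul hE'h
      rwa [show 0 + 3 + (3 - e) = 6 - e by omega] at this
    have h5 : ∀ i, (qp B p c i * R' i).IsHomogeneous (6 - e) := by
      intro i
      have := (q i).mul (hR'h i)
      rwa [show 2 + (4 - e) = 6 - e by omega] at this
    have h6 : (C 3 * (qp B p c 0 * R' 0 + qp B p c 1 * R' 1 + qp B p c 2 * R' 2)).IsHomogeneous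
        (6 - e) := by
      have := (isHomogeneous_C (Fin 3) (3 : ℂ)).mul (((h5 0).add (h5 1)).add (h5 2))
      rwa [show 0 + (6 - e) = 6 - e by omega] at this
    exact h4.sub h6
  -- coprimality
  have cop1 : ∀ h, Irreducible h → h ∣ E' → ∃ i, ¬ h ∣ R' i := by
    intro h hh hhE
    by_contra hcon
    push Not at hcon
    obtain ⟨k, -, hk⟩ := homog_of_dvd hE'h hE'0 hhE
    have hkpos := pos_of_irred hk hh
    have := hmax (e + k) ⟨g * h, hg.mul hk, by rw [hE']; exact mul_dvd_mul_left g hhE,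
      fun i => by rw [hR']; exact mul_dvd_mul_left g (hcon i)⟩
    omega
  have cop2 : ∀ h, Irreducible h → h ∣ g → ∃ i : Unit, ¬ h ∣ (fun _ : Unit => D') i := by
    intro h hh hhg
    refine ⟨(), fun hhD => ?_⟩
    refine no_square hB hF hP hpP hT hfin hh (by rw [hE']; exact hhg.mul_right _)
      (fun i => by rw [hR']; exact hhg.mul_right _) ?_
    rw [hDD]
    exact mul_dvd_mul hhg hhD
  -- off `g`
  have b1 : (Z.filter (fun z => ¬ eval z g = 0)).card ≤ (3 - e) * (4 - e) := by
    refine bez hR'h hE'0 cop1 hE'h _ (hZ.mono (Finset.filter_subset _ _)) ?_ ?_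
    · intro z hz
      obtain ⟨hz1, hz2⟩ := Finset.mem_filter.1 hz
      have := hE z hz1
      rw [hE', map_mul] at this
      exact (mul_eq_zero.1 this).resolve_left hz2
    · intro z hz i
      obtain ⟨hz1, hz2⟩ := Finset.mem_filter.1 hz
      have := hR z hz1 i
      rw [hR', map_mul] at this
      exact (mul_eq_zero.1 this).resolve_left hz2
  -- on `g`, `D' = 0`
  have b2 : (Z.filter (fun z => eval z g = 0 ∧ eval z D' = 0)).card ≤ e * (6 - e) := by
    refine bez (R := fun _ : Unit => D') (fun _ => hD'h) hg0 cop2 hg _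
      (hZ.mono (Finset.filter_subset _ _)) ?_ ?_
    · intro z hz; exact (Finset.mem_filter.1 hz).2.1
    · intro z hz _; exact (Finset.mem_filter.1 hz).2.2
  -- on `g`, `D' ≠ 0`
  have crit : ∀ z ∈ Z, eval z g = 0 → ¬ eval z D' = 0 → ∀ m, eval z (pderiv m g) = 0 := by
    intro z hz h1 h2 m
    have := hD z hz m
    rw [hDD, Derivation.leibniz, map_add, smul_eq_mul, smul_eq_mul, map_mul, map_mul, h1, zero_mul,
      zero_add] at this
    exact (mul_eq_zero.1 this).resolve_left h2
  have b3 : (Z.filter (fun z => eval z g = 0 ∧ ¬ eval z D' = 0)).card ≤ 3 := by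
    refine bad_card hB hF hP hpP hT (hZ.mono (Finset.filter_subset _ _)) ?_
    intro z hz
    obtain ⟨hz1, hz2, hz3⟩ := Finset.mem_filter.1 hz
    refine ⟨hE z hz1, fun m => ?_⟩
    rw [hE', Derivation.leibniz, map_add, smul_eq_mul, smul_eq_mul, map_mul, map_mul, hz2,
      crit z hz1 hz2 hz3 m]
    ring
  have b4 : e = 1 → (Z.filter (fun z => eval z g = 0 ∧ ¬ eval z D' = 0)).card = 0 := by
    intro he1
    rw [Finset.card_eq_zero, Finset.eq_empty_iff_forall_notMem]
    intro z hz
    obtain ⟨hz1, hz2, hz3⟩ := Finset.mem_filter.1 hz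
    rw [he1] at hg
    exact hg0 (no_crit_linear hg (crit z hz1 hz2 hz3))
  have b5 : e = 0 → (Z.filter (fun z => eval z g = 0 ∧ ¬ eval z D' = 0)).card = 0 := by
    intro he0
    rw [Finset.card_eq_zero, Finset.eq_empty_iff_forall_notMem]
    intro z hz
    obtain ⟨hz1, hz2, hz3⟩ := Finset.mem_filter.1 hz
    rw [he0] at hg
    have := (isUnit_of_homog_zero hg hg0).map (eval z)
    rw [hz2] at this
    exact not_isUnit_zero this
  have s1 := Finset.card_filter_add_card_filter_not (s := Z) (fun z => eval z g = 0)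
  have s2 := Finset.card_filter_add_card_filter_not (s := Z.filter (fun z => eval z g = 0))
    (fun z => eval z D' = 0)
  rw [Finset.filter_filter, Finset.filter_filter] at s2
  interval_cases e
  · have := b5 rfl; omega
  · have := b4 rfl; omega
  · omega
  · omega

/-- the residual pairs at a plane -/
theorem k13 (hB : Good B) (hP : Pl B P) (hfin : {W | Pl B W}.Finite)
    (M : Finset (Submodule ℂ V6)) (hM : ∀ Q ∈ M, Pl B Q ∧ Adj P Q) (hfree : Free Adj M) :
    M.card ≤ 13 := by
  classical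
  obtain ⟨p, c, S, T, hF, hpP, hT⟩ := exists_fr hP
  have hex : ∀ Q, ∃ y : Fin 3 → ℂ, Q ∈ M → (y ≠ 0 ∧ Q ≤ P ⊔ Submodule.span ℂ {lc c y} ∧
      eval y (Ep B p c) = 0 ∧ (∀ i, eval y (Rp B p c i) = 0) ∧
      ∀ m, eval y (pderiv m (Dp B p c)) = 0) := by
    intro Q
    by_cases hQM : Q ∈ M
    · obtain ⟨z, hz, hzP, α, α', β, β', hL, hq, hk⟩ :=
        node_of_plane hB hP hF hpP (hM Q hQM).1 (hM Q hQM).2
      refine ⟨fun i => T i z, fun _ => ⟨?_, ?_, eval_Ep_fac hL, ?_, ?_⟩⟩
      · intro h0
        apply hzP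
        have := hF.dec' z
        rw [h0] at this
        have h1 : lc c (0 : Fin 3 → ℂ) = 0 := by simp [lc]
        rw [h1, add_zero] at this
        rw [this]
        exact lc_mem hpP _
      · -- `Q = (P ⊓ Q) + z`
        intro x hx
        have hzn : z ∉ P ⊓ Q := fun h => hzP h.1
        have hr : finrank ℂ (P ⊓ Q : Submodule ℂ V6) = 2 := (hM Q hQM).2
        obtain ⟨m, hm, a, rfl⟩ := decomp (W := Q) (M := P ⊓ Q) inf_le_right
          (by rw [hr, (hM Q hQM).1.rk]) hz hzn hx
        have hz2 := hF.dec' z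
        refine Submodule.add_mem _ (Submodule.mem_sup_left hm.1) (Submodule.smul_mem _ _ ?_)
        rw [hz2]
        refine Submodule.add_mem _ (Submodule.mem_sup_left (lc_mem hpP _))
          (Submodule.mem_sup_right ?_)
        rw [← hz2]
        exact Submodule.mem_span_singleton_self _
      · exact eval_Rp_fac0 hL (fun i => by rw [eval_qp]; exact hq i)
      · intro m
        rw [eval_dDp_fac hL (fun i => by rw [eval_qp]; exact hq i), eval_kp, hk]
        ring
    · exact ⟨0, fun h => absurd h hQM⟩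
  choose y hy using hex
  have hprop : ∀ Q ∈ M, ∀ Q' ∈ M, Q ≠ Q' → ∀ t : ℂ, y Q ≠ t • y Q' := by
    intro Q hQ Q' hQ' hne t ht
    have h1 := (hy Q hQ).2.1
    have h2 := (hy Q' hQ').2.1
    have h3 : Q ≤ P ⊔ Submodule.span ℂ {lc c (y Q')} := by
      refine h1.trans (sup_le le_sup_left ?_)
      rw [Submodule.span_singleton_le_iff_mem, ht, lc_smul]
      exact Submodule.smul_mem _ _ (Submodule.mem_sup_right (Submodule.mem_span_singleton_self _))
    have hle : finrank ℂ (Q ⊔ Q' : Submodule ℂ V6) ≤ 4 := by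
      refine (Submodule.finrank_mono (sup_le h3 h2)).trans ?_
      have a1 := Submodule.finrank_add_le_finrank_add_finrank P (Submodule.span ℂ {lc c (y Q')})
      have a2 := finrank_span_singleton_le (lc c (y Q'))
      have a3 := hP.rk
      omega
    have hsum := Submodule.finrank_sup_add_finrank_inf_eq Q Q'
    rw [(hM Q hQ).1.rk, (hM Q' hQ').1.rk] at hsum
    have hlt : finrank ℂ (Q ⊓ Q' : Submodule ℂ V6) ≠ 3 := by
      intro h3
      apply hne
      have e1 : Q ⊓ Q' = Q :=
        Submodule.eq_of_le_of_finrank_le inf_le_left (by rw [(hM Q hQ).1.rk, h3])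
      have e2 : Q ⊓ Q' = Q' :=
        Submodule.eq_of_le_of_finrank_le inf_le_right (by rw [(hM Q' hQ').1.rk, h3])
      rw [← e1, e2]
    have hle3 : finrank ℂ (Q ⊓ Q' : Submodule ℂ V6) ≤ 3 := by
      have := Submodule.finrank_mono (inf_le_left : Q ⊓ Q' ≤ Q)
      rwa [(hM Q hQ).1.rk] at this
    exact hfree Q hQ Q' hQ' hne (show finrank ℂ (Q ⊓ Q' : Submodule ℂ V6) = 2 by omega)
  have hinj : Set.InjOn y M := by
    intro Q hQ Q' hQ' h
    by_contra hne
    exact hprop Q hQ Q' hQ' hne 1 (by rw [one_smul]; exact h)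
  rw [← Finset.card_image_of_injOn hinj]
  refine node_bound hB hF hP hpP hT hfin ⟨?_, ?_⟩ ?_ ?_ ?_
  · intro z hz
    obtain ⟨Q, hQ, rfl⟩ := Finset.mem_image.1 hz
    exact (hy Q hQ).1
  · intro z hz w hw hne t
    obtain ⟨Q, hQ, rfl⟩ := Finset.mem_image.1 hz
    obtain ⟨Q', hQ', rfl⟩ := Finset.mem_image.1 hw
    exact hprop Q hQ Q' hQ' (fun h => hne (by rw [h])) t
  · intro z hz
    obtain ⟨Q, hQ, rfl⟩ := Finset.mem_image.1 hz
    exact (hy Q hQ).2.2.1
  · intro z hz
    obtain ⟨Q, hQ, rfl⟩ := Finset.mem_image.1 hz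
    exact (hy Q hQ).2.2.2.1
  · intro z hz
    obtain ⟨Q, hQ, rfl⟩ := Finset.mem_image.1 hz
    exact (hy Q hQ).2.2.2.2

/-- a smooth cubic fourfold containing at least 28 planes contains two disjoint planes -/
theorem exists_disjoint28 {f : MvPolynomial (Fin 6) ℂ} (hf : IsSmoothCubic f)
    (h : 28 ≤ {W | IsPlane f W}.encard) :
    ∃ W W', IsPlane f W ∧ IsPlane f W' ∧ W ⊓ W' = ⊥ := by
  classical
  obtain ⟨B, hB⟩ := exists_polar hf.1
  have hg := hB.good hf
  by_contra hcon
  push Not at hcon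
  have hpair : ∀ W W', Pl B W → Pl B W' → W ⊓ W' ≠ ⊥ := by
    intro W W' h1 h2
    exact hcon W W' ((isPlane_iff hB hf W).2 h1) ((isPlane_iff hB hf W').2 h2)
  have hS : {W | IsPlane f W} = {W | Pl B W} := by
    ext W
    exact isPlane_iff hB hf W
  rw [hS] at h
  have h1 := ncard_le hg hpair (K := 13) le_rfl (fun W hW M hM hfree =>
    k13 hg hW (planes_finite hg hpair) M hM hfree)
  have h2 := (planes_finite hg hpair).cast_ncard_eq
  rw [← h2] at h
  have h3 : 28 ≤ {W | Pl B W}.ncard := by exact_mod_cast h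
  omega

end Vale.Agent.P287.K13
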