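import Vale.Agent.P287.Bdl.B1
import Vale.Agent.P287.K13.Bez

set_option linter.all false

/-! The net of conics, its discriminant cubic, and the discriminant sextic of a plane. -/

namespace Vale.Agent.P287.K13

open MvPolynomial Module

/-- a frame adapted to a plane of the cubic -/
structure Fr (B : Tri6) (p c : Fin 3 → V6) (S T : Fin 3 → (V6 →ₗ[ℂ] ℂ)) : Prop where
  dec : ∀ x, x = ∑ i, S i x • p i + ∑ i, T i x • c i
  Sp : ∀ i j, S i (p j) = if j = i then 1 else 0
  Sc : ∀ i j, S i (c j) = 0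
  Tp : ∀ i j, T i (p j) = 0
  Tc : ∀ i j, T i (c j) = if j = i then 1 else 0
  iso : ∀ i j k, B (p i) (p j) (p k) = 0

/-- linear combination -/
noncomputable def lc (p : Fin 3 → V6) (x : Fin 3 → ℂ) : V6 := ∑ i, x i • p i

theorem lc_add (p : Fin 3 → V6) (x y : Fin 3 → ℂ) : lc p (x + y) = lc p x + lc p y := by
  simp [lc, add_smul, Finset.sum_add_distrib]

theorem lc_smul (p : Fin 3 → V6) (t : ℂ) (x : Fin 3 → ℂ) : lc p (t • x) = t • lc p x := by
  simp [lc, Finset.smul_sum, smul_smul]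

variable (B : Tri6) (p c : Fin 3 → V6)

/-- entries of the net of conics -/
noncomputable def Lp (i j : Fin 3) : MP3 := ∑ a, C (B (p i) (p j) (c a)) * X a

/-- mixed quadrics -/
noncomputable def qp (i : Fin 3) : MP3 := ∑ a, ∑ b, C (B (p i) (c a) (c b)) * (X a * X b)

/-- the cubic of the complement -/
noncomputable def kp : MP3 := ∑ a, ∑ b, ∑ d, C (B (c a) (c b) (c d)) * (X a * X b * X d)

noncomputable def A00 : MP3 := Lp B p c 1 1 * Lp B p c 2 2 - Lp B p c 1 2 * Lp B p c 1 2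
noncomputable def A01 : MP3 := Lp B p c 0 2 * Lp B p c 1 2 - Lp B p c 0 1 * Lp B p c 2 2
noncomputable def A02 : MP3 := Lp B p c 0 1 * Lp B p c 1 2 - Lp B p c 0 2 * Lp B p c 1 1
noncomputable def A11 : MP3 := Lp B p c 0 0 * Lp B p c 2 2 - Lp B p c 0 2 * Lp B p c 0 2
noncomputable def A12 : MP3 := Lp B p c 0 1 * Lp B p c 0 2 - Lp B p c 0 0 * Lp B p c 1 2
noncomputable def A22 : MP3 := Lp B p c 0 0 * Lp B p c 1 1 - Lp B p c 0 1 * Lp B p c 0 1

/-- the discriminant cubic of the net -/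
noncomputable def Ep : MP3 :=
  Lp B p c 0 0 * A00 B p c + Lp B p c 0 1 * A01 B p c + Lp B p c 0 2 * A02 B p c

/-- three quartics -/
noncomputable def Rp (i : Fin 3) : MP3 :=
  match i with
  | 0 => A00 B p c * qp B p c 0 + A01 B p c * qp B p c 1 + A02 B p c * qp B p c 2
  | 1 => A01 B p c * qp B p c 0 + A11 B p c * qp B p c 1 + A12 B p c * qp B p c 2
  | 2 => A02 B p c * qp B p c 0 + A12 B p c * qp B p c 1 + A22 B p c * qp B p c 2

/-- the discriminant sextic -/
noncomputable def Dp : MP3 :=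
  C 4 * kp B c * Ep B p c - C 3 * (qp B p c 0 * Rp B p c 0 + qp B p c 1 * Rp B p c 1 +
    qp B p c 2 * Rp B p c 2)

theorem Lp_homog (i j : Fin 3) : (Lp B p c i j).IsHomogeneous 1 := by
  unfold Lp
  apply IsHomogeneous.sum
  intro a _
  have := (isHomogeneous_C (Fin 3) (B (p i) (p j) (c a))).mul (isHomogeneous_X ℂ a)
  simpa using this

theorem qp_homog (i : Fin 3) : (qp B p c i).IsHomogeneous 2 := by
  unfold qp
  refine IsHomogeneous.sum _ _ _ fun a _ => IsHomogeneous.sum _ _ _ fun b _ => ?_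
  have := (isHomogeneous_C (Fin 3) (B (p i) (c a) (c b))).mul
    ((isHomogeneous_X ℂ a).mul (isHomogeneous_X ℂ b))
  simpa using this

theorem kp_homog : (kp B c).IsHomogeneous 3 := by
  unfold kp
  refine IsHomogeneous.sum _ _ _ fun a _ => IsHomogeneous.sum _ _ _ fun b _ =>
    IsHomogeneous.sum _ _ _ fun d _ => ?_
  have := (isHomogeneous_C (Fin 3) (B (c a) (c b) (c d))).mul
    (((isHomogeneous_X ℂ a).mul (isHomogeneous_X ℂ b)).mul (isHomogeneous_X ℂ d))
  simpa using this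

theorem A_homog : (A00 B p c).IsHomogeneous 2 ∧ (A01 B p c).IsHomogeneous 2 ∧
    (A02 B p c).IsHomogeneous 2 ∧ (A11 B p c).IsHomogeneous 2 ∧ (A12 B p c).IsHomogeneous 2 ∧
    (A22 B p c).IsHomogeneous 2 := by
  have key : ∀ i j k l i' j' k' l' : Fin 3, (Lp B p c i j * Lp B p c k l -
      Lp B p c i' j' * Lp B p c k' l').IsHomogeneous 2 := fun i j k l i' j' k' l' =>
    ((Lp_homog B p c i j).mul (Lp_homog B p c k l)).sub
      ((Lp_homog B p c i' j').mul (Lp_homog B p c k' l'))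
  exact ⟨key _ _ _ _ _ _ _ _, key _ _ _ _ _ _ _ _, key _ _ _ _ _ _ _ _, key _ _ _ _ _ _ _ _,
    key _ _ _ _ _ _ _ _, key _ _ _ _ _ _ _ _⟩

theorem Ep_homog : (Ep B p c).IsHomogeneous 3 := by
  obtain ⟨h00, h01, h02, -, -, -⟩ := A_homog B p c
  exact (((Lp_homog B p c 0 0).mul h00).add ((Lp_homog B p c 0 1).mul h01)).add
    ((Lp_homog B p c 0 2).mul h02)

theorem Rp_homog (i : Fin 3) : (Rp B p c i).IsHomogeneous 4 := by
  obtain ⟨h00, h01, h02, h11, h12, h22⟩ := A_homog B p c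
  have q := qp_homog B p c
  fin_cases i
  · exact ((h00.mul (q 0)).add (h01.mul (q 1))).add (h02.mul (q 2))
  · exact ((h01.mul (q 0)).add (h11.mul (q 1))).add (h12.mul (q 2))
  · exact ((h02.mul (q 0)).add (h12.mul (q 1))).add (h22.mul (q 2))

theorem eval_Lp (i j : Fin 3) (y : Fin 3 → ℂ) :
    eval y (Lp B p c i j) = B (p i) (p j) (lc c y) := by
  simp [Lp, lc, map_sum, mul_comm]

theorem eval_qp (i : Fin 3) (y : Fin 3 → ℂ) :
    eval y (qp B p c i) = B (p i) (lc c y) (lc c y) := by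
  simp only [qp, lc, Fin.sum_univ_three, map_add, map_mul, eval_C, eval_X, map_smul,
    LinearMap.add_apply, LinearMap.smul_apply, smul_eq_mul]
  ring

theorem eval_kp (y : Fin 3 → ℂ) :
    eval y (kp B c) = B (lc c y) (lc c y) (lc c y) := by
  simp only [kp, lc, Fin.sum_univ_three, map_add, map_mul, eval_C, eval_X, map_smul,
    LinearMap.add_apply, LinearMap.smul_apply, smul_eq_mul]
  ring

theorem pderiv_Lp (i j m : Fin 3) : pderiv m (Lp B p c i j) = C (B (p i) (p j) (c m)) := by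
  classical
  simp only [Lp, map_sum, Derivation.leibniz, pderiv_C, smul_zero, add_zero, pderiv_X,
    smul_eq_mul]
  rw [Finset.sum_eq_single m]
  · simp
  · intro b _ hb
    simp [Pi.single_apply, Ne.symm hb]
  · intro h; exact absurd (Finset.mem_univ _) h

end Vale.Agent.P287.K13
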